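import Vale.Agent.P273.H852.Region

/-!
Two zones of the cores: near and far (`x = 1 / w`), and the sum over the sheets.
-/

namespace Vale.Agent.P273.H852

open MeasureTheory Finset

set_option linter.unusedSectionVars false

variable {ι K : Type*}

/-- Inversion as a change of variables. -/
theorem map_inv_zone (T : Set ℂ) (hT : MeasurableSet T) (h0 : (0 : ℂ) ∉ T) :
    ((volume.restrict ((fun w : ℂ => w⁻¹) ⁻¹' T)).withDensity
      (fun w => ENNReal.ofReal (‖w‖⁻¹ ^ 4))).map (fun w : ℂ => w⁻¹) = volume.restrict T := by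
  have hm : Measurable (fun w : ℂ => w⁻¹) := measurable_inv
  have hne : ∀ w ∈ ((fun w : ℂ => w⁻¹) ⁻¹' T), w ≠ 0 := by
    rintro w hw rfl
    rw [Set.mem_preimage, inv_zero] at hw
    exact h0 hw
  have h := map_withDensity_abs_det_fderiv_eq_addHaar (volume : Measure ℂ)
    (f := fun w : ℂ => w⁻¹)
    (f' := fun w => ((ContinuousLinearMap.smulRight (1 : ℂ →L[ℂ] ℂ)
      (-(w ^ 2)⁻¹)).restrictScalars ℝ))
    (s := (fun w : ℂ => w⁻¹) ⁻¹' T) (hm hT).nullMeasurableSet
    (fun w hw => by
      have := ((hasDerivAt_inv (hne w hw)).hasFDerivAt.restrictScalars ℝ).hasFDerivWithinAt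
        (s := (fun w : ℂ => w⁻¹) ⁻¹' T)
      exact this)
    (fun w1 _ w2 _ h => inv_injective h)
  have himg : (fun w : ℂ => w⁻¹) '' ((fun w : ℂ => w⁻¹) ⁻¹' T) = T :=
    Set.image_preimage_eq T inv_surjective
  rw [himg] at h
  rw [← h]
  congr 2
  funext w
  rw [det_smulRight, abs_of_nonneg (by positivity)]
  congr 1
  rw [norm_neg, norm_inv, norm_pow, ← inv_pow]
  ring

namespace Necks

/-- The zones of the core coordinate. -/
def zone (D : Necks K) (R0 : ℝ) : Bool → Set ℂ
  | false => D.core ∩ {x | ‖x‖ ≤ R0}
  | true => (fun w : ℂ => w⁻¹) ⁻¹' (D.core ∩ {x | R0 < ‖x‖})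

/-- The position from the zone coordinate. -/
noncomputable def zinv : Bool → ℂ → ℂ
  | false => fun x => x
  | true => fun w => w⁻¹

/-- The density in the zone coordinate. -/
noncomputable def zden : Bool → ℂ → ℝ
  | false => fun _ => 1
  | true => fun w => ‖w‖⁻¹ ^ 4

theorem measurable_zinv (b : Bool) : Measurable (zinv b) := by
  rcases b with _ | _
  · exact measurable_id
  · exact measurable_inv

theorem measurable_zden (b : Bool) : Measurable (zden b) := by
  rcases b with _ | _
  · exact measurable_const
  · unfold zden; fun_prop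

theorem zden_nonneg (b : Bool) (z : ℂ) : 0 ≤ zden b z := by
  rcases b with _ | _
  · exact zero_le_one
  · unfold zden; positivity

theorem measurableSet_core [Countable K] (D : Necks K) : MeasurableSet D.core :=
  (MeasurableSet.iUnion fun _ => measurableSet_ell _ _ _).compl

theorem measurableSet_zone [Countable K] (D : Necks K) (R0 : ℝ) (b : Bool) :
    MeasurableSet (D.zone R0 b) := by
  rcases b with _ | _
  · exact D.measurableSet_core.inter (measurableSet_le measurable_norm measurable_const)
  · exact measurable_inv (D.measurableSet_core.inter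
      (measurableSet_lt measurable_const measurable_norm))

theorem core_eq_zones [Countable K] (D : Necks K) {R0 : ℝ} (hR : 0 ≤ R0) :
    (volume : Measure ℂ).restrict D.core = ∑ b : Bool, ((volume.restrict (D.zone R0 b)).withDensity
      (fun z => ENNReal.ofReal (zden b z))).map (zinv b) := by
  have hm : MeasurableSet {x : ℂ | ‖x‖ ≤ R0} := measurableSet_le measurable_norm measurable_const
  have hcompl : {x : ℂ | ‖x‖ ≤ R0}ᶜ = {x : ℂ | R0 < ‖x‖} := by
    ext x; simp
  rw [Fintype.sum_bool]
  have h1 : ((volume.restrict (D.zone R0 true)).withDensity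
      (fun z => ENNReal.ofReal (zden true z))).map (zinv true) =
      volume.restrict (D.core ∩ {x | R0 < ‖x‖}) := by
    refine map_inv_zone _ (D.measurableSet_core.inter
      (measurableSet_lt measurable_const measurable_norm)) ?_
    rintro ⟨_, h⟩
    simp only [Set.mem_ofPred_eq, norm_zero] at h
    exact absurd h (not_lt.2 hR)
  have h2 : ((volume.restrict (D.zone R0 false)).withDensity
      (fun z => ENNReal.ofReal (zden false z))).map (zinv false) =
      volume.restrict (D.core ∩ {x | ‖x‖ ≤ R0}) := by
    have e1 : (fun z => ENNReal.ofReal (zden false z)) = fun _ => (1 : ENNReal) := by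
      funext z; exact ENNReal.ofReal_one
    rw [e1, withDensity_const, one_smul]
    exact Measure.map_id
  rw [h1, h2, add_comm, ← hcompl, Set.inter_comm D.core, Set.inter_comm D.core,
    ← Measure.restrict_restrict hm, ← Measure.restrict_restrict hm.compl,
    Measure.restrict_add_restrict_compl hm]

end Necks

open Necks

variable [Fintype ι] [DecidableEq ι] [Fintype K] [DecidableEq K]

/-- **Sum over the sheets.** -/
theorem pi_sheet_eq (s : ℂ → ℂ) (hs : Measurable s) :
    Measure.pi (fun _ : ι => sheetMeas s volume) =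
      ∑ σ : ι → Bool, (volume : Measure (ι → ℂ)).map
        (fun x j => (x j, if σ j then s (x j) else - s (x j))) := by
  have h1 : sheetMeas s volume = ∑ b : Bool, (volume : Measure ℂ).map
      (fun x => (x, if b then s x else - s x)) := by
    rw [Fintype.sum_bool, sheetMeas]
    rfl
  have hm : ∀ b : Bool, Measurable (fun x : ℂ => (x, if b then s x else - s x)) := by
    intro b
    rcases b with _ | _
    · exact measurable_id.prodMk hs.neg
    · exact measurable_id.prodMk hs
  have i1 : ∀ b : Bool, SigmaFinite ((volume : Measure ℂ).map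
      (fun x => (x, if b then s x else - s x))) := by
    intro b
    rcases b with _ | _
    · exact sigmaFinite_graph _ hs.neg
    · exact sigmaFinite_graph _ hs
  rw [h1, pi_sum]
  refine Finset.sum_congr rfl fun σ _ => ?_
  rw [← Measure.pi_map_pi (hμ := fun j => i1 (σ j)) (fun j => (hm (σ j)).aemeasurable)]
  rfl

/-- Positions of all core marks from the zone coordinates. -/
noncomputable def finv {C : Type*} (far : C → Bool) (s : C → ℂ) (c : C) : ℂ := zinv (far c) (s c)

/-- Density of all core marks. -/
noncomputable def fden {C : Type*} [Fintype C] (far : C → Bool) (s : C → ℂ) : ℝ :=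
  ∏ c, zden (far c) (s c)

theorem measurable_finv {C : Type*} (far : C → Bool) : Measurable (finv far) :=
  measurable_pi_lambda _ fun c => (measurable_zinv (far c)).comp (measurable_pi_apply c)

theorem measurable_fden {C : Type*} [Fintype C] (far : C → Bool) : Measurable (fden far) :=
  Finset.measurable_prod _ fun c _ => (measurable_zden (far c)).comp (measurable_pi_apply c)

theorem core_pi_zones {C : Type*} [Fintype C] [DecidableEq C] (D : Necks K) {R0 : ℝ}
    (hR : 0 ≤ R0) :
    (volume : Measure (C → ℂ)).restrict (Set.univ.pi fun _ => D.core) =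
      ∑ far : C → Bool, ((volume.restrict (Set.univ.pi fun c => D.zone R0 (far c))).withDensity
        (fun s => ENNReal.ofReal (fden far s))).map (finv far) := by
  rw [volume_pi, Measure.restrict_pi_pi, D.core_eq_zones hR]
  have i1 : ∀ b : Bool, SigmaFinite (((volume.restrict (D.zone R0 b)).withDensity
      (fun z => ENNReal.ofReal (zden b z))).map (zinv b)) := by
    intro b
    rcases b with _ | _
    · have e1 : (fun z => ENNReal.ofReal (zden false z)) = fun _ => (1 : ENNReal) := by
        funext z; exact ENNReal.ofReal_one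
      rw [e1, withDensity_const, one_smul]
      have : (volume.restrict (D.zone R0 false)).map (zinv false) =
        volume.restrict (D.zone R0 false) := Measure.map_id
      rw [this]
      infer_instance
    · have h0 : (0 : ℂ) ∉ (D.core ∩ {x | R0 < ‖x‖}) := by
        rintro ⟨_, h⟩
        simp only [Set.mem_ofPred_eq, norm_zero] at h
        exact absurd h (not_lt.2 hR)
      have := map_inv_zone (D.core ∩ {x | R0 < ‖x‖}) (D.measurableSet_core.inter
        (measurableSet_lt measurable_const measurable_norm)) h0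
      show SigmaFinite (((volume.restrict ((fun w : ℂ => w⁻¹) ⁻¹'
        (D.core ∩ {x | R0 < ‖x‖}))).withDensity
        (fun w => ENNReal.ofReal (‖w‖⁻¹ ^ 4))).map (fun w : ℂ => w⁻¹))
      rw [this]
      infer_instance
  have i2 : ∀ b : Bool, SigmaFinite ((volume.restrict (D.zone R0 b)).withDensity
      (fun z => ENNReal.ofReal (zden b z))) := fun b =>
    SigmaFinite.of_map _ (measurable_zinv b).aemeasurable (i1 b)
  rw [pi_sum]
  refine Finset.sum_congr rfl fun far _ => ?_
  rw [← Measure.pi_map_pi (hμ := fun c => i1 (far c)) (fun c => (measurable_zinv (far c)).aemeasurable),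
    pi_withDensity (hfin := fun c => i2 (far c)) (fun c => volume.restrict (D.zone R0 (far c)))
      (fun c z => ENNReal.ofReal (zden (far c) z))
      (fun c => (measurable_zden (far c)).ennreal_ofReal), Measure.restrict_pi_pi]
  have e2 : (fun x : C → ℂ => ∏ i, ENNReal.ofReal (zden (far i) (x i))) =
      fun s => ENNReal.ofReal (fden far s) := by
    funext x
    rw [fden, ENNReal.ofReal_prod_of_nonneg fun c _ => zden_nonneg _ _]
  rw [e2]
  rfl

namespace Reg

variable (R : Reg ι K)

/-- Measure of one region with zones, in the coordinates `((u, θ), s)`. -/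
noncomputable def fmeas (D : Necks K) (R0 : ℝ) (far : R.Kc → Bool) :
    Measure (((R.Gf → ℝ) × (R.Gf → ℝ)) × (R.Kc → ℂ)) :=
  (((volume.restrict (R.dom D)).prod (volume.restrict R.box)).prod
    (volume.restrict (Set.univ.pi fun c => D.zone R0 (far c))))

/-- Position of the marks in the coordinates `((u, θ), s)`. -/
noncomputable def fpos (D : Necks K) (far : R.Kc → Bool)
    (q : ((R.Gf → ℝ) × (R.Gf → ℝ)) × (R.Kc → ℂ)) : ι → ℂ × ℂ :=
  R.pos D (R.tau D q.1.1 q.1.2) (finv far q.2)

/-- Jacobian in the coordinates `((u, θ), s)`. -/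
noncomputable def fjac (D : Necks K) (far : R.Kc → Bool)
    (q : ((R.Gf → ℝ) × (R.Gf → ℝ)) × (R.Kc → ℂ)) : ℝ :=
  R.jac D (R.tau D q.1.1 q.1.2) * fden far q.2

theorem jac_nonneg (D : Necks K) (τ : R.Gap → ℂ) : 0 ≤ R.jac D τ :=
  Finset.prod_nonneg fun _ _ => by positivity

theorem fden_nonneg {C : Type*} [Fintype C] (far : C → Bool) (s : C → ℂ) : 0 ≤ fden far s :=
  Finset.prod_nonneg fun _ _ => zden_nonneg _ _

theorem fjac_nonneg (D : Necks K) (far : R.Kc → Bool)
    (q : ((R.Gf → ℝ) × (R.Gf → ℝ)) × (R.Kc → ℂ)) : 0 ≤ R.fjac D far q :=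
  mul_nonneg (R.jac_nonneg D _) (fden_nonneg _ _)

theorem measurable_pos {D : Necks K} (hD : D.Good) :
    Measurable (fun q : ((R.Gf → ℝ) × (R.Gf → ℝ)) × (R.Kc → ℂ) =>
      R.pos D (R.tau D q.1.1 q.1.2) q.2) := by
  have e3 : ((fun (x : ι → ℂ) j => D.out (R.A j) (x j)) ∘
      (fun q : ((R.Gf → ℝ) × (R.Gf → ℝ)) × (R.Kc → ℂ) =>
        glue R.A (zN D.Y D.a R.ch q.1.1 q.1.2, q.2))) =
      fun q => R.pos D (R.tau D q.1.1 q.1.2) q.2 := by
    funext q j
    exact R.out_glue D q j
  rw [← e3]
  exact (measurable_out_pi hD R.A).comp (measurable_src D R)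

theorem measurable_jac (D : Necks K) :
    Measurable (fun q : (R.Gf → ℝ) × (R.Gf → ℝ) => R.jac D (R.tau D q.1 q.2)) := by
  have ht : ∀ g : R.Gap, Measurable (fun q : (R.Gf → ℝ) × (R.Gf → ℝ) => R.tau D q.1 q.2 g) := by
    intro g
    unfold tau
    have h1 : ∀ (Y : K → ℝ), Measurable fun v : R.Gf → ℝ =>
        fullGap (R.m g.1) (Y g.1) (fun i => v ⟨g.1, i⟩) g.2 := by
      intro Y
      rcases Fin.eq_self_or_eq_succAbove (R.m g.1) g.2 with h | ⟨j, h⟩
      · rw [h]
        simp only [fullGap_same]
        exact measurable_const.sub (Finset.measurable_sum _ fun i _ => measurable_pi_apply _)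
      · rw [h]
        simp only [fullGap_succAbove]
        exact measurable_pi_apply _
    have h2 := (h1 D.Y).comp (measurable_fst : Measurable (Prod.fst : (R.Gf → ℝ) × (R.Gf → ℝ) → _))
    have h3 := (h1 D.a).comp (measurable_snd : Measurable (Prod.snd : (R.Gf → ℝ) × (R.Gf → ℝ) → _))
    simp only [Function.comp_def] at h2 h3
    fun_prop
  unfold jac
  refine Finset.measurable_prod _ fun g _ => ?_
  have hU : Measurable (fun q : (R.Gf → ℝ) × (R.Gf → ℝ) => R.U D (R.tau D q.1 q.2) g.1 g.2) :=
    measurable_const.mul (Finset.measurable_prod _ fun i _ => ht _)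
  have hV : Measurable (fun q : (R.Gf → ℝ) × (R.Gf → ℝ) => R.V D (R.tau D q.1 q.2) g.1 g.2) :=
    measurable_const.mul (Finset.measurable_prod _ fun i _ => ht _)
  fun_prop

theorem measurable_fpos {D : Necks K} (hD : D.Good) (far : R.Kc → Bool) :
    Measurable (R.fpos D far) :=
  (R.measurable_pos hD).comp (measurable_id.prodMap (measurable_finv far))

theorem measurable_fjac (D : Necks K) (far : R.Kc → Bool) : Measurable (R.fjac D far) := by
  unfold fjac
  exact ((R.measurable_jac D).comp measurable_fst).mul ((measurable_fden far).comp measurable_snd)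

theorem meas_eq_zones (D : Necks K) {R0 : ℝ} (hR : 0 ≤ R0) :
    R.meas D = ∑ far : R.Kc → Bool, ((R.fmeas D R0 far).withDensity
      (fun q => ENNReal.ofReal (fden far q.2))).map (Prod.map id (finv far)) := by
  unfold meas
  rw [core_pi_zones D hR]
  have i1 : ∀ far : R.Kc → Bool, SFinite (((volume.restrict (Set.univ.pi fun c =>
      D.zone R0 (far c))).withDensity (fun s => ENNReal.ofReal (fden far s))).map
        (finv far)) := fun far => inferInstance
  rw [← Measure.sum_fintype, Measure.prod_sum_right, Measure.sum_fintype]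
  refine Finset.sum_congr rfl fun far _ => ?_
  have hd : Measurable (fun s : R.Kc → ℂ => ENNReal.ofReal (fden far s)) :=
    (measurable_fden far).ennreal_ofReal
  have h1 := Measure.map_prod_map ((volume.restrict (R.dom D)).prod (volume.restrict R.box))
    ((volume.restrict (Set.univ.pi fun c => D.zone R0 (far c))).withDensity
      (fun s => ENNReal.ofReal (fden far s))) measurable_id (measurable_finv far)
  rw [Measure.map_id] at h1
  rw [h1, prod_withDensity_right hd]
  rfl

end Reg

/-- **Region decomposition of the fibre, with zones.** -/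
theorem region_far_eq {D : Necks K} (hD : D.Good) {R0 : ℝ} (hR : 0 ≤ R0) :
    Measure.pi (fun _ : ι => sheetMeas D.s volume) =
      ∑ R : Reg ι K, ∑ far : R.Kc → Bool, ((R.fmeas D R0 far).withDensity
        (fun q => ENNReal.ofReal (R.fjac D far q))).map (R.fpos D far) := by
  rw [region_measure_eq hD]
  refine Finset.sum_congr rfl fun R _ => ?_
  have hpos := R.measurable_pos hD
  have hjac : Measurable (fun q : ((R.Gf → ℝ) × (R.Gf → ℝ)) × (R.Kc → ℂ) =>
      ENNReal.ofReal (R.jac D (R.tau D q.1.1 q.1.2))) :=
    ((R.measurable_jac D).comp measurable_fst).ennreal_ofReal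
  rw [R.meas_eq_zones D hR, withDensity_fsum, Measure.map_finset_sum' hpos.aemeasurable]
  refine Finset.sum_congr rfl fun far _ => ?_
  have hz : Measurable (Prod.map (id : (R.Gf → ℝ) × (R.Gf → ℝ) → _) (finv far)) :=
    measurable_id.prodMap (measurable_finv far)
  have hd : Measurable (fun q : ((R.Gf → ℝ) × (R.Gf → ℝ)) × (R.Kc → ℂ) =>
      ENNReal.ofReal (fden far q.2)) :=
    ((measurable_fden far).comp measurable_snd).ennreal_ofReal
  have h5 : ((R.fmeas D R0 far).withDensity (fun q => ENNReal.ofReal (fden far q.2))).withDensity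
      (fun x => ENNReal.ofReal (R.jac D (R.tau D (Prod.map id (finv far) x).1.1
        (Prod.map id (finv far) x).1.2))) =
      (R.fmeas D R0 far).withDensity (fun q => ENNReal.ofReal (R.fjac D far q)) := by
    have h6 := withDensity_mul (R.fmeas D R0 far) hd (hjac.comp hz)
    refine h6.symm.trans ?_
    congr 1
    funext q
    show ENNReal.ofReal (fden far q.2) * ENNReal.ofReal (R.jac D (R.tau D q.1.1 q.1.2)) = _
    rw [← ENNReal.ofReal_mul (Reg.fden_nonneg _ _), mul_comm, Reg.fjac]
  rw [withDensity_map' hz hjac, Measure.map_map hpos hz, h5]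
  rfl

/-- lintegral form. -/
theorem region_lintegral {D : Necks K} (hD : D.Good) {R0 : ℝ} (hR : 0 ≤ R0)
    {g : (ι → ℂ × ℂ) → ENNReal} (hg : Measurable g) :
    ∫⁻ x, g x ∂(Measure.pi fun _ : ι => sheetMeas D.s volume) =
      ∑ R : Reg ι K, ∑ far : R.Kc → Bool,
        ∫⁻ q, ENNReal.ofReal (R.fjac D far q) * g (R.fpos D far q) ∂(R.fmeas D R0 far) := by
  rw [region_far_eq hD hR, lintegral_finsetSum_measure]
  refine Finset.sum_congr rfl fun R _ => ?_
  rw [lintegral_finsetSum_measure]
  refine Finset.sum_congr rfl fun far _ => ?_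
  rw [lintegral_map hg (R.measurable_fpos hD far)]
  exact lintegral_withDensity_eq_lintegral_mul _ (R.measurable_fjac D far).ennreal_ofReal
    (g := fun q => g (R.fpos D far q)) (hg.comp (R.measurable_fpos hD far))

variable {E : Type*} [NormedAddCommGroup E] [NormedSpace ℝ E]

theorem region_integrable {D : Necks K} (hD : D.Good) {R0 : ℝ} (hR : 0 ≤ R0)
    {g : (ι → ℂ × ℂ) → E} (hg : Integrable g (Measure.pi fun _ : ι => sheetMeas D.s volume))
    (R : Reg ι K) (far : R.Kc → Bool) :
    Integrable (fun q => R.fjac D far q • g (R.fpos D far q)) (R.fmeas D R0 far) := by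
  rw [region_far_eq hD hR, integrable_finsetSum_measure] at hg
  have h1 := hg R (mem_univ _)
  rw [integrable_finsetSum_measure] at h1
  have h2 := h1 far (mem_univ _)
  rw [integrable_map_measure h2.aestronglyMeasurable (R.measurable_fpos hD far).aemeasurable] at h2
  have h3 := (integrable_withDensity_iff_integrable_smul₀'
    (R.measurable_fjac D far).ennreal_ofReal.aemeasurable
    (Filter.Eventually.of_forall fun _ => ENNReal.ofReal_lt_top)).1 h2
  refine h3.congr (Filter.Eventually.of_forall fun q => ?_)
  simp only [Function.comp, ENNReal.toReal_ofReal (R.fjac_nonneg D far q)]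

/-- integral form. -/
theorem region_integral {D : Necks K} (hD : D.Good) {R0 : ℝ} (hR : 0 ≤ R0)
    {g : (ι → ℂ × ℂ) → E} (hg : Integrable g (Measure.pi fun _ : ι => sheetMeas D.s volume)) :
    ∫ x, g x ∂(Measure.pi fun _ : ι => sheetMeas D.s volume) =
      ∑ R : Reg ι K, ∑ far : R.Kc → Bool,
        ∫ q, R.fjac D far q • g (R.fpos D far q) ∂(R.fmeas D R0 far) := by
  rw [region_far_eq hD hR] at hg ⊢
  rw [integrable_finsetSum_measure] at hg
  rw [integral_finsetSum_measure hg]
  refine Finset.sum_congr rfl fun R _ => ?_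
  have h1 := hg R (mem_univ _)
  rw [integrable_finsetSum_measure] at h1
  rw [integral_finsetSum_measure h1]
  refine Finset.sum_congr rfl fun far _ => ?_
  have h2 := h1 far (mem_univ _)
  rw [integral_map (R.measurable_fpos hD far).aemeasurable h2.aestronglyMeasurable,
    integral_withDensity_eq_integral_toReal_smul₀
      (R.measurable_fjac D far).ennreal_ofReal.aemeasurable
      (Filter.Eventually.of_forall fun _ => ENNReal.ofReal_lt_top)]
  refine integral_congr_ae (Filter.Eventually.of_forall fun q => ?_)
  simp only [ENNReal.toReal_ofReal (R.fjac_nonneg D far q)]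

end Vale.Agent.P273.H852
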