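import Vale.Agent.P273.H852.Neck2

/-!
One mark: the curve measure is the sum of the core part and of the necks.
-/

namespace Vale.Agent.P273.H852

open MeasureTheory Finset

set_option linter.unusedSectionVars false

theorem ell_eq (e ε : ℂ) (c : ℝ) :
    ell e ε c = {x | ‖(x - e) + ((x - e) ^ 2 - ε) ^ (2⁻¹ : ℂ)‖ < c ∧
      ‖(x - e) - ((x - e) ^ 2 - ε) ^ (2⁻¹ : ℂ)‖ < c} := by
  ext x
  set S := ((x - e) ^ 2 - ε) ^ (2⁻¹ : ℂ) with hS
  have hSS : S ^ 2 = (x - e) ^ 2 - ε := by
    rw [hS]
    exact Complex.cpow_nat_inv_pow _ (n := 2) two_ne_zero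
  constructor
  · rintro ⟨U, V, h1, h2, h3, h4⟩
    have hV : V = 2 * (x - e) - U := by rw [← h2]; ring
    have h5 : (U - (x - e) - S) * (U - (x - e) + S) = 0 := by
      have : U * (2 * (x - e) - U) = ε := by rw [← hV]; exact h1
      linear_combination (-1 : ℂ) * this - hSS
    rcases mul_eq_zero.1 h5 with h | h
    · have hU : U = (x - e) + S := by linear_combination h
      have hV' : V = (x - e) - S := by rw [hV, hU]; ring
      exact ⟨by rw [← hU]; exact h3, by rw [← hV']; exact h4⟩
    · have hU : U = (x - e) - S := by linear_combination h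
      have hV' : V = (x - e) + S := by rw [hV, hU]; ring
      exact ⟨by rw [← hV']; exact h4, by rw [← hU]; exact h3⟩
  · rintro ⟨h1, h2⟩
    refine ⟨(x - e) + S, (x - e) - S, ?_, by ring, h1, h2⟩
    linear_combination (-1 : ℂ) * hSS

theorem measurableSet_ell (e ε : ℂ) (c : ℝ) : MeasurableSet (ell e ε c) := by
  rw [ell_eq]
  have h : Measurable fun x : ℂ => ((x - e) ^ 2 - ε) ^ (2⁻¹ : ℂ) := by fun_prop
  have m1 : Measurable fun x : ℂ => ‖(x - e) + ((x - e) ^ 2 - ε) ^ (2⁻¹ : ℂ)‖ :=
    ((measurable_id.sub_const e).add h).norm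
  have m2 : Measurable fun x : ℂ => ‖(x - e) - ((x - e) ^ 2 - ε) ^ (2⁻¹ : ℂ)‖ :=
    ((measurable_id.sub_const e).sub h).norm
  exact (measurableSet_lt m1 measurable_const).inter (measurableSet_lt m2 measurable_const)

/-- The two sheets can be named by any branch. -/
theorem swap_sheets {α : Type*} [MeasurableSpace α] (ν : Measure α) {X η ζ : α → ℂ}
    (hX : Measurable X) (hη : Measurable η) (hζ : Measurable ζ)
    (h : ∀ᵐ z ∂ν, η z ^ 2 = ζ z ^ 2) :
    ν.map (fun z => (X z, η z)) + ν.map (fun z => (X z, - η z)) =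
      ν.map (fun z => (X z, ζ z)) + ν.map (fun z => (X z, - ζ z)) := by
  ext B hB
  have m1 : Measurable fun z => (X z, η z) := hX.prodMk hη
  have m2 : Measurable fun z => (X z, - η z) := hX.prodMk hη.neg
  have m3 : Measurable fun z => (X z, ζ z) := hX.prodMk hζ
  have m4 : Measurable fun z => (X z, - ζ z) := hX.prodMk hζ.neg
  rw [Measure.add_apply, Measure.add_apply, Measure.map_apply m1 hB, Measure.map_apply m2 hB,
    Measure.map_apply m3 hB, Measure.map_apply m4 hB, ← lintegral_indicator_one (m1 hB),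
    ← lintegral_indicator_one (m2 hB), ← lintegral_indicator_one (m3 hB),
    ← lintegral_indicator_one (m4 hB), ← lintegral_add_left, ← lintegral_add_left]
  · refine lintegral_congr_ae ?_
    filter_upwards [h] with z hz
    have ind : ∀ f : α → ℂ × ℂ, ((f ⁻¹' B).indicator (1 : α → ENNReal)) z =
      B.indicator 1 (f z) := fun f => rfl
    rw [ind, ind, ind, ind]
    have h5 : (η z - ζ z) * (η z + ζ z) = 0 := by linear_combination hz
    rcases mul_eq_zero.1 h5 with h6 | h6
    · have : η z = ζ z := sub_eq_zero.1 h6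
      rw [this]
    · have : η z = - ζ z := eq_neg_of_add_eq_zero_left h6
      rw [this, neg_neg, add_comm]
  · exact measurable_one.indicator (m3 hB)
  · exact measurable_one.indicator (m1 hB)

variable {K : Type*}

/-- The number `ε / c²`. -/
noncomputable def Necks.κ (D : Necks K) (k : K) : ℂ :=
  Complex.exp (-(D.Y k : ℂ) + (D.a k : ℂ) * Complex.I)

/-- Density on the neck, as a function of `U / c`. -/
noncomputable def Necks.dens (D : Necks K) (k : K) (z : ℂ) : ENNReal :=
  ENNReal.ofReal (‖((D.c k : ℂ) * z - (D.c k : ℂ) * D.κ k / z) / 2‖ ^ 2)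

/-- Point of the curve, as a function of `U / c`. -/
noncomputable def Necks.npt (D : Necks K) (k : K) (z : ℂ) : ℂ × ℂ :=
  D.pt k ((D.c k : ℂ) * z) ((D.c k : ℂ) * D.κ k / z)

theorem Necks.measurable_dens (D : Necks K) (k : K) : Measurable (D.dens k) := by
  unfold Necks.dens
  fun_prop

theorem Necks.Good.measurable_npt {D : Necks K} (hD : D.Good) (k : K) : Measurable (D.npt k) := by
  unfold Necks.npt Necks.pt
  have := hD.meas_G k
  have hX : Measurable (fun z : ℂ => D.e k + ((D.c k : ℂ) * z + (D.c k : ℂ) * D.κ k / z) / 2) := by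
    fun_prop
  refine hX.prodMk ?_
  exact (this.comp hX).mul (by fun_prop)

theorem Necks.Good.neck_curve {D : Necks K} (hD : D.Good) (k : K) :
    ((annMeas (D.Y k)).withDensity (D.dens k)).map (D.npt k) =
      sheetMeas D.s (volume.restrict (ell (D.e k) (D.ε k) (D.c k))) := by
  have hc := hD.c_pos k
  have hY := hD.Y_pos k
  have hκ0 : D.κ k ≠ 0 := Complex.exp_ne_zero _
  have hκ : ‖D.κ k‖ = Real.exp (-(D.Y k)) := norm_kappa rfl
  have hcc : (D.c k : ℂ) ≠ 0 := by exact_mod_cast hc.ne'
  have hε : D.ε k = (D.c k : ℂ) ^ 2 * D.κ k := hD.ε_eq k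
  have hmd := D.measurable_dens k
  have hmp := hD.measurable_npt k
  set ν := (annMeas (D.Y k / 2)).withDensity (D.dens k) with hν
  let X : ℂ → ℂ := fun z => D.e k + ((D.c k : ℂ) * z + (D.c k : ℂ) * D.κ k / z) / 2
  let η : ℂ → ℂ := fun z => D.G k (X z) * (((D.c k : ℂ) * z - (D.c k : ℂ) * D.κ k / z) / 2)
  have hX : Measurable X := by fun_prop
  have hη : Measurable η := ((hD.meas_G k).comp hX).mul (by fun_prop)
  have hinv : Measurable fun z : ℂ => D.κ k / z := by fun_prop
  have hhalf : ν.map X = volume.restrict (ell (D.e k) (D.ε k) (D.c k)) := by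
    rw [hε]
    exact half_neck hc hY hκ
  have hcancel : ∀ z : ℂ, D.κ k / (D.κ k / z) = z := fun z => div_div_cancel₀ hκ0
  have hdens : ∀ z : ℂ, D.dens k (D.κ k / z) = D.dens k z := by
    intro z
    unfold Necks.dens
    congr 2
    have : ((D.c k : ℂ) * (D.κ k / z) - (D.c k : ℂ) * D.κ k / (D.κ k / z)) / 2 =
        -(((D.c k : ℂ) * z - (D.c k : ℂ) * D.κ k / z) / 2) := by
      rw [mul_div_assoc, hcancel, mul_div_assoc]
      ring
    rw [this, norm_neg]
  have hnpt : ∀ z : ℂ, D.npt k (D.κ k / z) = (X z, - η z) := by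
    intro z
    have e1 : (D.c k : ℂ) * D.κ k / (D.κ k / z) = (D.c k : ℂ) * z := by
      rw [mul_div_assoc, hcancel]
    have e2 : (D.c k : ℂ) * (D.κ k / z) = (D.c k : ℂ) * D.κ k / z := by rw [mul_div_assoc]
    unfold Necks.npt Necks.pt
    rw [e1, e2]
    have e3 : D.e k + ((D.c k : ℂ) * D.κ k / z + (D.c k : ℂ) * z) / 2 = X z := by
      simp only [X]; ring
    rw [e3]
    refine Prod.ext rfl ?_
    simp only [η]
    ring
  have h1 : ((annMeas (D.Y k)).withDensity (D.dens k)).map (D.npt k) =
      ν.map (fun z => (X z, η z)) + ν.map (fun z => (X z, - η z)) := by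
    rw [annMeas_split hY (D.a k), withDensity_add_measure, Measure.map_add _ _ hmp]
    congr 1
    have : (annMeas (D.Y k / 2)).map
        (fun z => Complex.exp (-(D.Y k : ℂ) + (D.a k : ℂ) * Complex.I) / z) =
        (annMeas (D.Y k / 2)).map (fun z => D.κ k / z) := rfl
    rw [this, withDensity_map' hinv hmd, Measure.map_map hmp hinv]
    have h2 : (fun z => D.dens k (D.κ k / z)) = D.dens k := funext hdens
    have h3 : (D.npt k ∘ fun z => D.κ k / z) = fun z => (X z, - η z) := funext hnpt
    rw [h2, h3]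
  have hae : ∀ᵐ z ∂ν, η z ^ 2 = (D.s (X z)) ^ 2 := by
    have h4 : ∀ᵐ x ∂(ν.map X), x ∈ ell (D.e k) (D.ε k) (D.c k) := by
      rw [hhalf]
      exact ae_restrict_mem (measurableSet_ell _ _ _)
    have h5 := ae_of_ae_map hX.aemeasurable h4
    have h6 : ∀ᵐ z ∂ν, z ≠ 0 := by
      rw [hν]
      refine (withDensity_absolutelyContinuous _ _).ae_le ?_
      rw [annMeas_eq_exp]
      refine (ae_map_iff Complex.measurable_exp.aemeasurable ?_).2 ?_
      · exact (measurableSet_singleton (0 : ℂ)).compl
      · exact Filter.Eventually.of_forall fun w => Complex.exp_ne_zero w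
    filter_upwards [h5, h6] with z hz hz0
    have h7 := hD.sq k (X z) hz
    rw [h7, hε]
    simp only [η, X]
    field_simp
    ring
  rw [h1, swap_sheets ν hX hη (hD.meas_s.comp hX) hae, sheetMeas, ← hhalf,
    Measure.map_map ?_ hX, Measure.map_map ?_ hX]
  · rfl
  · exact measurable_id.prodMk hD.meas_s.neg
  · exact measurable_id.prodMk hD.meas_s

/-- **One mark**: decomposition of the curve. -/
theorem Necks.Good.curve_measure_eq [Fintype K] {D : Necks K} (hD : D.Good) :
    sheetMeas D.s volume = sheetMeas D.s (volume.restrict D.core) +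
      ∑ k, ((annMeas (D.Y k)).withDensity (D.dens k)).map (D.npt k) := by
  have h1 : (volume : Measure ℂ) = volume.restrict D.core +
      ∑ k, volume.restrict (ell (D.e k) (D.ε k) (D.c k)) := by
    have hU : MeasurableSet (⋃ k, ell (D.e k) (D.ε k) (D.c k)) :=
      MeasurableSet.iUnion fun k => measurableSet_ell _ _ _
    have h2 : (volume : Measure ℂ).restrict (⋃ k, ell (D.e k) (D.ε k) (D.c k)) =
        ∑ k, volume.restrict (ell (D.e k) (D.ε k) (D.c k)) := by
      rw [Measure.restrict_iUnion hD.disj (fun k => measurableSet_ell _ _ _),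
        Measure.sum_fintype]
    rw [← h2, Necks.core, add_comm, Measure.restrict_add_restrict_compl hU]
  have m1 : Measurable fun x : ℂ => (x, D.s x) := measurable_id.prodMk hD.meas_s
  have m2 : Measurable fun x : ℂ => (x, - D.s x) := measurable_id.prodMk hD.meas_s.neg
  have h3 : ∀ k, ((annMeas (D.Y k)).withDensity (D.dens k)).map (D.npt k) =
      sheetMeas D.s (volume.restrict (ell (D.e k) (D.ε k) (D.c k))) := fun k => hD.neck_curve k
  simp_rw [h3]
  conv_lhs => rw [h1]
  simp only [sheetMeas]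
  rw [Measure.map_add _ _ m1, Measure.map_add _ _ m2, Measure.map_finset_sum' m1.aemeasurable,
    Measure.map_finset_sum' m2.aemeasurable, Finset.sum_add_distrib]
  abel

end Vale.Agent.P273.H852
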