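import Vale.Agent.P273.H852.Many

/-!
**Region decomposition of the fibre.**
-/

namespace Vale.Agent.P273.H852

open MeasureTheory Finset

set_option linter.unusedSectionVars false

variable {ι K : Type*}

namespace Necks

/-- Source measure of a label. -/
noncomputable def bse (D : Necks K) : K ⊕ Bool → Measure ℂ
  | Sum.inl k => annMeas (D.Y k)
  | Sum.inr _ => volume.restrict D.core

/-- Density of a label. -/
noncomputable def dn (D : Necks K) : K ⊕ Bool → ℂ → ENNReal
  | Sum.inl k => D.dens k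
  | Sum.inr _ => fun _ => 1

/-- Map to the curve. -/
noncomputable def out (D : Necks K) : K ⊕ Bool → ℂ → ℂ × ℂ
  | Sum.inl k => D.npt k
  | Sum.inr b => fun x => (x, if b then D.s x else - D.s x)

instance (D : Necks K) (l : K ⊕ Bool) : SigmaFinite (D.bse l) := by
  rcases l with k | b <;> simp only [bse] <;> infer_instance

theorem measurable_dn (D : Necks K) (l : K ⊕ Bool) : Measurable (D.dn l) := by
  rcases l with k | b
  · exact D.measurable_dens k
  · exact measurable_const

theorem Good.measurable_out {D : Necks K} (hD : D.Good) (l : K ⊕ Bool) :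
    Measurable (D.out l) := by
  rcases l with k | b
  · exact hD.measurable_npt k
  · rcases b with _ | _
    · exact measurable_id.prodMk hD.meas_s.neg
    · exact measurable_id.prodMk hD.meas_s

theorem Good.curve_eq [Fintype K] {D : Necks K} (hD : D.Good) :
    sheetMeas D.s volume = ∑ l : K ⊕ Bool, ((D.bse l).withDensity (D.dn l)).map (D.out l) := by
  rw [hD.curve_measure_eq, Fintype.sum_sum_type, Fintype.sum_bool, add_comm]
  congr 1
  simp only [bse, dn, out, sheetMeas, withDensity_const, one_smul]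
  rfl

theorem sigmaFinite_graph (μ : Measure ℂ) [SigmaFinite μ] {f : ℂ → ℂ} (hf : Measurable f) :
    SigmaFinite (μ.map fun x => (x, f x)) := by
  refine SigmaFinite.of_map _ (f := Prod.fst) measurable_fst.aemeasurable ?_
  have hm : Measurable (fun x : ℂ => (x, f x)) := measurable_id.prodMk hf
  rw [Measure.map_map measurable_fst hm]
  have : (Prod.fst ∘ fun x : ℂ => (x, f x)) = id := rfl
  rw [this, Measure.map_id]
  infer_instance

theorem Good.sigmaFinite_out {D : Necks K} (hD : D.Good) (l : K ⊕ Bool) :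
    SigmaFinite (((D.bse l).withDensity (D.dn l)).map (D.out l)) := by
  rcases l with k | b
  · have := hD.neck_curve k
    show SigmaFinite (((annMeas (D.Y k)).withDensity (D.dens k)).map (D.npt k))
    rw [this, sheetMeas]
    have h1 := sigmaFinite_graph (volume.restrict (ell (D.e k) (D.ε k) (D.c k))) hD.meas_s
    have h2 := sigmaFinite_graph (volume.restrict (ell (D.e k) (D.ε k) (D.c k))) hD.meas_s.neg
    infer_instance
  · show SigmaFinite (((volume.restrict D.core).withDensity (fun _ => 1)).map _)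
    rw [withDensity_const, one_smul]
    rcases b with _ | _
    · exact sigmaFinite_graph _ hD.meas_s.neg
    · exact sigmaFinite_graph _ hD.meas_s

theorem Good.sigmaFinite_dn {D : Necks K} (hD : D.Good) (l : K ⊕ Bool) :
    SigmaFinite ((D.bse l).withDensity (D.dn l)) :=
  SigmaFinite.of_map _ (hD.measurable_out l).aemeasurable (hD.sigmaFinite_out l)

end Necks

variable [Fintype ι] [DecidableEq ι] [Fintype K] [DecidableEq K]

/-- Neck marks and core marks. -/
noncomputable def splitEquiv (A : ι → K ⊕ Bool) :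
    (Σ k, {j // A j = Sum.inl k}) ⊕ {j : ι // ∀ k, A j ≠ Sum.inl k} ≃ ι :=
  Equiv.ofBijective (Sum.elim (fun x => x.2.1) (fun j => j.1)) (by
    constructor
    · rintro (⟨k, j, hj⟩ | ⟨j, hj⟩) (⟨k', j', hj'⟩ | ⟨j', hj'⟩) h
      · simp only [Sum.elim_inl] at h
        subst h
        have : k = k' := Sum.inl.inj (hj.symm.trans hj')
        subst this
        rfl
      · simp only [Sum.elim_inl, Sum.elim_inr] at h
        subst h
        exact absurd hj (hj' k)
      · simp only [Sum.elim_inl, Sum.elim_inr] at h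
        subst h
        exact absurd hj' (hj k')
      · simp only [Sum.elim_inr] at h
        subst h
        rfl
    · intro j
      rcases h : A j with k | b
      · exact ⟨Sum.inl ⟨k, j, h⟩, rfl⟩
      · exact ⟨Sum.inr ⟨j, fun k hk => by rw [h] at hk; cases hk⟩, rfl⟩)

theorem splitEquiv_symm_inl (A : ι → K ⊕ Bool) {j : ι} {k : K} (h : A j = Sum.inl k) :
    (splitEquiv A).symm j = Sum.inl ⟨k, j, h⟩ := by
  rw [Equiv.symm_apply_eq]; rfl

theorem splitEquiv_symm_inr (A : ι → K ⊕ Bool) {j : ι} (h : ∀ k, A j ≠ Sum.inl k) :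
    (splitEquiv A).symm j = Sum.inr ⟨j, h⟩ := by
  rw [Equiv.symm_apply_eq]; rfl

/-- Coordinates of all marks from those of the neck marks and of the core marks. -/
noncomputable def glue (A : ι → K ⊕ Bool)
    (f : ((Σ k, {j // A j = Sum.inl k}) → ℂ) × ({j : ι // ∀ k, A j ≠ Sum.inl k} → ℂ)) (j : ι) : ℂ :=
  Sum.elim f.1 f.2 ((splitEquiv A).symm j)

theorem measurable_glue (A : ι → K ⊕ Bool) : Measurable (glue A) := by
  refine measurable_pi_lambda _ fun j => ?_
  unfold glue
  rcases (splitEquiv A).symm j with x | x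
  · exact (measurable_pi_apply x).comp measurable_fst
  · exact (measurable_pi_apply x).comp measurable_snd

theorem pi_bse (D : Necks K) (A : ι → K ⊕ Bool) :
    Measure.pi (fun j => D.bse (A j)) =
      ((Measure.pi fun x : (Σ k, {j // A j = Sum.inl k}) => annMeas (D.Y x.1)).prod
        (volume.restrict (Set.univ.pi fun _ : {j : ι // ∀ k, A j ≠ Sum.inl k} => D.core))).map
          (glue A) := by
  rw [pi_split (splitEquiv A) (fun j => D.bse (A j))]
  have h1 : (fun x : (Σ k, {j // A j = Sum.inl k}) => D.bse (A ((splitEquiv A) (Sum.inl x)))) =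
      fun x => annMeas (D.Y x.1) := by
    funext x
    have : A ((splitEquiv A) (Sum.inl x)) = Sum.inl x.1 := x.2.2
    rw [this]
    rfl
  have h2 : (fun x : {j : ι // ∀ k, A j ≠ Sum.inl k} => D.bse (A ((splitEquiv A) (Sum.inr x)))) =
      fun _ => volume.restrict D.core := by
    funext x
    have h3 : A ((splitEquiv A) (Sum.inr x)) = A x.1 := rfl
    rw [h3]
    rcases h : A x.1 with k | b
    · exact absurd h (x.2 k)
    · rfl
  rw [h1, h2, volume_pi, Measure.restrict_pi_pi]
  rfl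

/-- The choices of one assignment, as a function of the region. -/
def Reg.ch (R : Reg ι K) : Ch (fun k => {j // R.A j = Sum.inl k}) := fun k => (R.ord k, R.m k)

/-- Regions as a sigma type. -/
def regEquiv (ι K : Type*) [Fintype ι] [DecidableEq ι] [Fintype K] [DecidableEq K] :
    Reg ι K ≃ Σ A : ι → K ⊕ Bool, Ch (fun k => {j // A j = Sum.inl k}) where
  toFun R := ⟨R.A, R.ch⟩
  invFun x := ⟨x.1, fun k => (x.2 k).1, fun k => (x.2 k).2⟩
  left_inv _ := rfl
  right_inv _ := rfl

noncomputable instance : Fintype (Reg ι K) := Fintype.ofEquiv _ (regEquiv ι K).symm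

namespace Reg

variable (R : Reg ι K)

theorem pos_inl (D : Necks K) (τ : R.Gap → ℂ) (z : R.Kc → ℂ) {j : ι} {k : K}
    (h : R.A j = Sum.inl k) :
    R.pos D τ z j = D.pt k (R.U D τ k ((R.ord k).symm ⟨j, h⟩))
      (R.V D τ k ((R.ord k).symm ⟨j, h⟩)) := by
  unfold pos
  split
  · next k' h' =>
    have : k' = k := Sum.inl.inj (h'.symm.trans h)
    subst this
    rfl
  · next b h' =>
    rw [h] at h'
    cases h'

theorem pos_inr (D : Necks K) (τ : R.Gap → ℂ) (z : R.Kc → ℂ) {j : ι} {b : Bool}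
    (h : R.A j = Sum.inr b) (h2 : ∀ k, R.A j ≠ Sum.inl k) :
    R.pos D τ z j = (z ⟨j, h2⟩, if b then D.s (z ⟨j, h2⟩) else - D.s (z ⟨j, h2⟩)) := by
  unfold pos
  split
  · next k' h' =>
    rw [h] at h'
    cases h'
  · next b' h' =>
    have : b' = b := Sum.inr.inj (h'.symm.trans h)
    subst this
    rfl

theorem zN_eq (D : Necks K) (u θ : R.Gf → ℝ) (k : K) (i : Fin (R.n k)) :
    (D.c k : ℂ) * zN D.Y D.a R.ch u θ ⟨k, R.ord k i⟩ = R.U D (R.tau D u θ) k i := by
  rw [U, zN]
  congr 1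
  have h1 : ∀ (Y : K → ℝ) (v : R.Gf → ℝ), Tmap Y R.ch v ⟨k, R.ord k i⟩ =
      ∑ i' ∈ Iic i.castSucc, fullGap (R.m k) (Y k) (fun i => v ⟨k, i⟩) i' := by
    intro Y v
    have : Tmap Y R.ch v ⟨k, R.ord k i⟩ =
        posOf (fullGap (R.m k) (Y k) (fun i => v ⟨k, i⟩)) ((R.ord k).symm (R.ord k i)) := rfl
    rw [this, Equiv.symm_apply_apply]
    rfl
  rw [h1, h1]
  simp only [tau]
  rw [← Complex.exp_sum, Finset.sum_add_distrib, Finset.sum_neg_distrib, ← Finset.sum_mul]
  push_cast
  rfl

theorem prod_tau (D : Necks K) (u θ : R.Gf → ℝ) (k : K) :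
    ∏ i, R.tau D u θ ⟨k, i⟩ = D.κ k := by
  simp only [tau]
  rw [← Complex.exp_sum, Finset.sum_add_distrib, Finset.sum_neg_distrib, ← Finset.sum_mul,
    Necks.κ]
  have h1 : ∀ (Y : K → ℝ) (v : R.Gf → ℝ), ∑ i, ((fullGap (R.m k) (Y k) (fun i => v ⟨k, i⟩) i : ℝ) : ℂ) =
      (Y k : ℂ) := by
    intro Y v
    rw [← Complex.ofReal_sum, sum_fullGap]
  rw [h1, h1]

theorem V_eq (D : Necks K) (u θ : R.Gf → ℝ) (k : K) (i : Fin (R.n k)) :
    (D.c k : ℂ) * D.κ k / zN D.Y D.a R.ch u θ ⟨k, R.ord k i⟩ = R.V D (R.tau D u θ) k i := by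
  have h1 : zN D.Y D.a R.ch u θ ⟨k, R.ord k i⟩ = ∏ i' ∈ Iic i.castSucc, R.tau D u θ ⟨k, i'⟩ := by
    by_cases hc : (D.c k : ℂ) = 0
    · -- independent of `c`: use another record
      have := R.zN_eq { D with c := fun _ => 1 } u θ k i
      rw [U] at this
      have e : R.tau { D with c := fun _ => 1 } u θ = R.tau D u θ := rfl
      rw [e] at this
      simpa using this
    · have := R.zN_eq D u θ k i
      rw [U] at this
      exact mul_left_cancel₀ hc this
  have h2 : (∏ i' ∈ Iic i.castSucc, R.tau D u θ ⟨k, i'⟩) *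
      (∏ i' ∈ Ioi i.castSucc, R.tau D u θ ⟨k, i'⟩) = D.κ k := by
    rw [← R.prod_tau D u θ k, ← Finset.prod_union]
    · congr 1
      ext x
      simp only [mem_union, mem_Iic, mem_Ioi, mem_univ, iff_true]
      exact le_or_gt _ _
    · rw [Finset.disjoint_left]
      intro x hx hx'
      rw [mem_Iic] at hx
      rw [mem_Ioi] at hx'
      exact absurd hx' (not_lt.2 hx)
  have h3 : (∏ i' ∈ Iic i.castSucc, R.tau D u θ ⟨k, i'⟩) ≠ 0 :=
    Finset.prod_ne_zero_iff.2 fun x _ => Complex.exp_ne_zero _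
  rw [V, h1, ← h2]
  field_simp

theorem out_glue (D : Necks K) (q : ((R.Gf → ℝ) × (R.Gf → ℝ)) × (R.Kc → ℂ)) (j : ι) :
    D.out (R.A j) (glue R.A (zN D.Y D.a R.ch q.1.1 q.1.2, q.2) j) =
      R.pos D (R.tau D q.1.1 q.1.2) q.2 j := by
  rcases h : R.A j with k | b
  · rw [R.pos_inl D _ _ h, glue, splitEquiv_symm_inl R.A h]
    obtain ⟨i, hi⟩ := (R.ord k).surjective ⟨j, h⟩
    have e1 := R.zN_eq D q.1.1 q.1.2 k i
    have e2 := R.V_eq D q.1.1 q.1.2 k i
    rw [hi] at e1 e2
    have e3 : (R.ord k).symm ⟨j, h⟩ = i := by rw [Equiv.symm_apply_eq]; exact hi.symm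
    show D.pt k ((D.c k : ℂ) * zN D.Y D.a R.ch q.1.1 q.1.2 ⟨k, ⟨j, h⟩⟩)
      ((D.c k : ℂ) * D.κ k / zN D.Y D.a R.ch q.1.1 q.1.2 ⟨k, ⟨j, h⟩⟩) = _
    rw [e1, e2, e3]
  · have h2 : ∀ k, R.A j ≠ Sum.inl k := fun k hk => by rw [h] at hk; cases hk
    rw [R.pos_inr D _ _ h h2, glue, splitEquiv_symm_inr R.A h2]
    rfl

theorem dn_glue (D : Necks K) (q : ((R.Gf → ℝ) × (R.Gf → ℝ)) × (R.Kc → ℂ)) :
    ∏ j, D.dn (R.A j) (glue R.A (zN D.Y D.a R.ch q.1.1 q.1.2, q.2) j) =
      ENNReal.ofReal (R.jac D (R.tau D q.1.1 q.1.2)) := by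
  rw [← (splitEquiv R.A).prod_comp, Fintype.prod_sum_type]
  have h1 : ∀ x : {j : ι // ∀ k, R.A j ≠ Sum.inl k},
      D.dn (R.A (splitEquiv R.A (Sum.inr x)))
        (glue R.A (zN D.Y D.a R.ch q.1.1 q.1.2, q.2) (splitEquiv R.A (Sum.inr x))) = 1 := by
    intro x
    have h3 : R.A ((splitEquiv R.A) (Sum.inr x)) = R.A x.1 := rfl
    rw [h3]
    rcases h : R.A x.1 with k | b
    · exact absurd h (x.2 k)
    · rfl
  rw [Finset.prod_eq_one (fun x _ => h1 x), mul_one]
  have h2 : ∀ x : (Σ k, {j // R.A j = Sum.inl k}),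
      D.dn (R.A (splitEquiv R.A (Sum.inl x)))
        (glue R.A (zN D.Y D.a R.ch q.1.1 q.1.2, q.2) (splitEquiv R.A (Sum.inl x))) =
      D.dens x.1 (zN D.Y D.a R.ch q.1.1 q.1.2 x) := by
    intro x
    have h3 : R.A ((splitEquiv R.A) (Sum.inl x)) = Sum.inl x.1 := x.2.2
    rw [h3, glue, Equiv.symm_apply_apply]
    rfl
  rw [Finset.prod_congr rfl fun x _ => h2 x]
  let e : R.Gf ≃ (Σ k, {j // R.A j = Sum.inl k}) := Equiv.sigmaCongrRight R.ord
  rw [← e.prod_comp, jac, ENNReal.ofReal_prod_of_nonneg (fun g _ => by positivity)]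
  refine Finset.prod_congr rfl fun g _ => ?_
  have e1 := R.zN_eq D q.1.1 q.1.2 g.1 g.2
  have e2 := R.V_eq D q.1.1 q.1.2 g.1 g.2
  show D.dens g.1 (zN D.Y D.a R.ch q.1.1 q.1.2 ⟨g.1, R.ord g.1 g.2⟩) = _
  rw [Necks.dens, e1, e2]

end Reg

theorem measurable_zN {J : K → Type*} [∀ k, Fintype (J k)] [∀ k, DecidableEq (J k)]
    (Y a : K → ℝ) (p : Ch J) :
    Measurable (fun q : ((Σ k, Fin (Fintype.card (J k))) → ℝ) ×
      ((Σ k, Fin (Fintype.card (J k))) → ℝ) => zN Y a p q.1 q.2) := by
  refine measurable_pi_lambda _ fun x => ?_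
  unfold zN
  have e1 : Measurable fun q : ((Σ k, Fin (Fintype.card (J k))) → ℝ) ×
      ((Σ k, Fin (Fintype.card (J k))) → ℝ) => Tmap Y p q.1 x :=
    ((measurable_pi_apply x).comp (measurable_Tmap Y p)).comp measurable_fst
  have e2 : Measurable fun q : ((Σ k, Fin (Fintype.card (J k))) → ℝ) ×
      ((Σ k, Fin (Fintype.card (J k))) → ℝ) => Tmap a p q.2 x :=
    ((measurable_pi_apply x).comp (measurable_Tmap a p)).comp measurable_snd
  fun_prop

theorem measurable_dn_prod (D : Necks K) (A : ι → K ⊕ Bool) :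
    Measurable (fun (x : ι → ℂ) => ∏ j, D.dn (A j) (x j)) :=
  Finset.measurable_prod _ fun j _ => (D.measurable_dn (A j)).comp (measurable_pi_apply j)

theorem measurable_out_pi {D : Necks K} (hD : D.Good) (A : ι → K ⊕ Bool) :
    Measurable (fun (x : ι → ℂ) j => D.out (A j) (x j)) :=
  measurable_pi_lambda _ fun j => (hD.measurable_out (A j)).comp (measurable_pi_apply j)

theorem measurable_src (D : Necks K) (R : Reg ι K) :
    Measurable (fun q : ((R.Gf → ℝ) × (R.Gf → ℝ)) × (R.Kc → ℂ) =>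
      glue R.A (zN D.Y D.a R.ch q.1.1 q.1.2, q.2)) :=
  (measurable_glue R.A).comp ((measurable_zN D.Y D.a R.ch).prodMap measurable_id)

theorem map_src (D : Necks K) (R : Reg ι K) :
    ((((volume.restrict (sdom (fun k => {j // R.A j = Sum.inl k}) D.Y)).prod
        (volume.restrict (angBox R.Gf))).map
          (fun q => zN D.Y D.a R.ch q.1 q.2)).prod
        (volume.restrict (Set.univ.pi fun _ : R.Kc => D.core))).map (glue R.A) =
      (R.meas D).map (fun q => glue R.A (zN D.Y D.a R.ch q.1.1 q.1.2, q.2)) := by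
  have hz := measurable_zN (J := fun k => {j // R.A j = Sum.inl k}) D.Y D.a R.ch
  have i3 : IsFiniteMeasure ((volume : Measure (R.Gf → ℝ)).restrict (angBox R.Gf)) := by
    refine ⟨?_⟩
    rw [Measure.restrict_apply_univ, angBox, volume_pi_pi]
    exact ENNReal.prod_lt_top fun _ _ => measure_Ioc_lt_top
  have h1 : (volume.restrict (Set.univ.pi fun _ : R.Kc => D.core)) =
      (volume.restrict (Set.univ.pi fun _ : R.Kc => D.core)).map id := Measure.map_id.symm
  conv_lhs => rw [h1]
  rw [Measure.map_prod_map _ _ hz measurable_id,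
    Measure.map_map (measurable_glue R.A) (hz.prodMap measurable_id)]
  rfl

theorem region_one {D : Necks K} (hD : D.Good) (R : Reg ι K) :
    ((((((volume.restrict (sdom (fun k => {j // R.A j = Sum.inl k}) D.Y)).prod
        (volume.restrict (angBox R.Gf))).map
          (fun q => zN D.Y D.a R.ch q.1 q.2)).prod
        (volume.restrict (Set.univ.pi fun _ : R.Kc => D.core))).map (glue R.A)).withDensity
        (fun x => ∏ j, D.dn (R.A j) (x j))).map (fun x j => D.out (R.A j) (x j)) =
      ((R.meas D).withDensity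
        (fun q => ENNReal.ofReal (R.jac D (R.tau D q.1.1 q.1.2)))).map
          (fun q => R.pos D (R.tau D q.1.1 q.1.2) q.2) := by
  rw [map_src, withDensity_map' (measurable_src D R) (measurable_dn_prod D R.A),
    Measure.map_map (measurable_out_pi hD R.A) (measurable_src D R)]
  have e2 : (fun q : ((R.Gf → ℝ) × (R.Gf → ℝ)) × (R.Kc → ℂ) =>
      ∏ j, D.dn (R.A j) (glue R.A (zN D.Y D.a R.ch q.1.1 q.1.2, q.2) j)) =
      fun q => ENNReal.ofReal (R.jac D (R.tau D q.1.1 q.1.2)) := by
    funext q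
    exact R.dn_glue D q
  have e3 : ((fun (x : ι → ℂ) j => D.out (R.A j) (x j)) ∘
      (fun q : ((R.Gf → ℝ) × (R.Gf → ℝ)) × (R.Kc → ℂ) =>
        glue R.A (zN D.Y D.a R.ch q.1.1 q.1.2, q.2))) =
      fun q => R.pos D (R.tau D q.1.1 q.1.2) q.2 := by
    funext q j
    exact R.out_glue D q j
  rw [e2, e3]

theorem prod_sum_meas {P X Z : Type*} [Fintype P] [MeasurableSpace X] [MeasurableSpace Z]
    (f : P → Measure X) (μ : Measure Z) [SFinite μ] :
    (∑ p, f p).prod μ = ∑ p, (f p).prod μ := by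
  rw [← Measure.sum_fintype, ← Measure.sum_fintype, Measure.prod_sum_left]

theorem withDensity_fsum {P X : Type*} [Fintype P] [MeasurableSpace X]
    (f : P → Measure X) (g : X → ENNReal) :
    (∑ p, f p).withDensity g = ∑ p, (f p).withDensity g := by
  rw [← Measure.sum_fintype, withDensity_sum, Measure.sum_fintype]

theorem assignment_eq {D : Necks K} (hD : D.Good) (A : ι → K ⊕ Bool) :
    Measure.pi (fun j => ((D.bse (A j)).withDensity (D.dn (A j))).map (D.out (A j))) =
      ∑ p : Ch (fun k => {j // A j = Sum.inl k}),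
        ((((regEquiv ι K).symm ⟨A, p⟩).meas D).withDensity
        (fun q => ENNReal.ofReal (((regEquiv ι K).symm ⟨A, p⟩).jac D
          (((regEquiv ι K).symm ⟨A, p⟩).tau D q.1.1 q.1.2)))).map
          (fun q => ((regEquiv ι K).symm ⟨A, p⟩).pos D
            (((regEquiv ι K).symm ⟨A, p⟩).tau D q.1.1 q.1.2) q.2) := by
  have i1 := fun l => hD.sigmaFinite_out l
  have i2 := fun l => hD.sigmaFinite_dn l
  rw [← Measure.pi_map_pi (hμ := fun j => i1 (A j))
      (fun j => (hD.measurable_out (A j)).aemeasurable),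
    pi_withDensity (hfin := fun j => i2 (A j)) (fun j => D.bse (A j)) (fun j => D.dn (A j))
      (fun j => D.measurable_dn (A j)), pi_bse, pi_annMeas_many hD.Y_pos D.a, prod_sum_meas,
    Measure.map_finset_sum' (measurable_glue A).aemeasurable, withDensity_fsum,
    Measure.map_finset_sum' (measurable_out_pi hD A).aemeasurable]
  refine Finset.sum_congr rfl fun p _ => ?_
  exact region_one hD ((regEquiv ι K).symm ⟨A, p⟩)

/-- **Region decomposition of the fibre.** -/
theorem region_measure_eq {D : Necks K} (hD : D.Good) :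
    Measure.pi (fun _ : ι => sheetMeas D.s volume) =
      ∑ R : Reg ι K, ((R.meas D).withDensity
        (fun q => ENNReal.ofReal (R.jac D (R.tau D q.1.1 q.1.2)))).map
          (fun q => R.pos D (R.tau D q.1.1 q.1.2) q.2) := by
  have i1 := fun l => hD.sigmaFinite_out l
  rw [← (regEquiv ι K).symm.sum_comp, Fintype.sum_sigma, hD.curve_eq, pi_sum]
  exact Finset.sum_congr rfl fun A _ => assignment_eq hD A

end Vale.Agent.P273.H852
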