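import Vale.Agent.P273.H852.Order

/-!
Region decomposition of the fibre: definitions and literal statements.

`K` = set of necks (three at the theta point, one for the one-node statement),
`ι` = set of marks.  Curve `y ^ 2 = f x` with `f x = s x ^ 2`, `s` any measurable branch.
-/

namespace Vale.Agent.P273.H852

open MeasureTheory Finset

variable {ι K : Type*}

/-- Sum over the two sheets of a measure in the `x` plane. -/
noncomputable def sheetMeas (s : ℂ → ℂ) (μ : Measure ℂ) : Measure (ℂ × ℂ) :=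
  μ.map (fun x => (x, s x)) + μ.map (fun x => (x, - s x))

/-- The part of the `x` plane covered by the neck `U V = ε`, `|U| < c`, `|V| < c`,
`2 (x - e) = U + V`. -/
def ell (e ε : ℂ) (c : ℝ) : Set ℂ :=
  {x | ∃ U V : ℂ, U * V = ε ∧ U + V = 2 * (x - e) ∧ ‖U‖ < c ∧ ‖V‖ < c}

/-- Data of the necks of one curve. -/
structure Necks (K : Type*) where
  e : K → ℂ
  c : K → ℝ
  ε : K → ℂ
  /-- length of the neck -/
  Y : K → ℝ
  /-- angle of the neck -/
  a : K → ℝ
  /-- `y = G k x * (U - V) / 2` on the neck `k` -/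
  G : K → ℂ → ℂ
  /-- a branch of the square root of `f` -/
  s : ℂ → ℂ

/-- The conditions. -/
structure Necks.Good (D : Necks K) : Prop where
  c_pos : ∀ k, 0 < D.c k
  Y_pos : ∀ k, 0 < D.Y k
  ε_eq : ∀ k, D.ε k = (D.c k : ℂ) ^ 2 * Complex.exp (-(D.Y k : ℂ) + (D.a k : ℂ) * Complex.I)
  meas_G : ∀ k, Measurable (D.G k)
  meas_s : Measurable D.s
  sq : ∀ k, ∀ x ∈ ell (D.e k) (D.ε k) (D.c k),
    (D.s x) ^ 2 = ((x - D.e k) ^ 2 - D.ε k) * (D.G k x) ^ 2
  disj : Pairwise (Function.onFun Disjoint fun k => ell (D.e k) (D.ε k) (D.c k))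

/-- The core part of the plane. -/
def Necks.core (D : Necks K) : Set ℂ := (⋃ k, ell (D.e k) (D.ε k) (D.c k))ᶜ

/-- The point of the curve with neck coordinates `U`, `V`. -/
noncomputable def Necks.pt (D : Necks K) (k : K) (U V : ℂ) : ℂ × ℂ :=
  (D.e k + (U + V) / 2, D.G k (D.e k + (U + V) / 2) * ((U - V) / 2))

variable [Fintype ι] [DecidableEq ι] [Fintype K] [DecidableEq K]

/-- A region: assignment of the marks to necks and cores (`inr true` = sheet `s`, `inr false` =
sheet `-s`), order on every neck, number of the eliminated gap on every neck. -/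
structure Reg (ι K : Type*) [Fintype ι] [DecidableEq ι] [Fintype K] [DecidableEq K] where
  A : ι → K ⊕ Bool
  ord : ∀ k, Fin (Fintype.card {j // A j = Sum.inl k}) ≃ {j // A j = Sum.inl k}
  m : ∀ k, Fin (Fintype.card {j // A j = Sum.inl k} + 1)

namespace Reg

variable (R : Reg ι K)

/-- number of marks on neck `k` -/
abbrev n (k : K) : ℕ := Fintype.card {j // R.A j = Sum.inl k}

/-- core marks -/
abbrev Kc : Type _ := {j : ι // ∀ k, R.A j ≠ Sum.inl k}

/-- all gaps -/
abbrev Gap : Type _ := Σ k, Fin (R.n k + 1)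

/-- free gaps: `(k, i)` stands for the gap `(k, (m k).succAbove i)` -/
abbrev Gf : Type _ := Σ k, Fin (R.n k)

/-- All gaps `τ` from the free coordinates `u, θ`. -/
noncomputable def tau (D : Necks K) (u θ : R.Gf → ℝ) (g : R.Gap) : ℂ :=
  Complex.exp (-((fullGap (R.m g.1) (D.Y g.1) (fun i => u ⟨g.1, i⟩) g.2 : ℝ) : ℂ) +
    ((fullGap (R.m g.1) (D.a g.1) (fun i => θ ⟨g.1, i⟩) g.2 : ℝ) : ℂ) * Complex.I)

/-- `U` coordinate of the mark number `i` on neck `k`. -/
noncomputable def U (D : Necks K) (τ : R.Gap → ℂ) (k : K) (i : Fin (R.n k)) : ℂ :=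
  D.c k * ∏ i' ∈ Iic i.castSucc, τ ⟨k, i'⟩

/-- `V` coordinate of the mark number `i` on neck `k`. -/
noncomputable def V (D : Necks K) (τ : R.Gap → ℂ) (k : K) (i : Fin (R.n k)) : ℂ :=
  D.c k * ∏ i' ∈ Ioi i.castSucc, τ ⟨k, i'⟩

/-- Position of the marks. -/
noncomputable def pos (D : Necks K) (τ : R.Gap → ℂ) (z : R.Kc → ℂ) (j : ι) : ℂ × ℂ :=
  match h : R.A j with
  | Sum.inl k => D.pt k (R.U D τ k ((R.ord k).symm ⟨j, h⟩)) (R.V D τ k ((R.ord k).symm ⟨j, h⟩))
  | Sum.inr b => (z ⟨j, fun k hk => by simp [hk] at h⟩,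
      (if b then D.s (z ⟨j, fun k hk => by simp [hk] at h⟩)
        else - D.s (z ⟨j, fun k hk => by simp [hk] at h⟩)))

/-- The domain of the `u` coordinates. -/
def dom (D : Necks K) : Set (R.Gf → ℝ) :=
  {u | ∀ g : R.Gf, 0 < u g ∧ u g < D.Y g.1 - ∑ i, u ⟨g.1, i⟩}

/-- The domain of the angles. -/
def box : Set (R.Gf → ℝ) := angBox R.Gf

/-- The Jacobian. -/
noncomputable def jac (D : Necks K) (τ : R.Gap → ℂ) : ℝ :=
  ∏ g : R.Gf, ‖(R.U D τ g.1 g.2 - R.V D τ g.1 g.2) / 2‖ ^ 2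

/-- The measure of one region in the coordinates `((u, θ), z)`. -/
noncomputable def meas (D : Necks K) : Measure (((R.Gf → ℝ) × (R.Gf → ℝ)) × (R.Kc → ℂ)) :=
  (((volume.restrict (R.dom D)).prod (volume.restrict R.box)).prod
    (volume.restrict (Set.univ.pi fun _ => D.core)))

end Reg

end Vale.Agent.P273.H852
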