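import Vale.Agent.P273.H852.Prod

/-!
Marks on several necks: ordered gap coordinates on all necks at once.
-/

namespace Vale.Agent.P273.H852

open MeasureTheory Finset

set_option linter.unusedSectionVars false

section Gen

variable {J : Type*} [Fintype J]

theorem pi_annMeas' (Y : J → ℝ) :
    Measure.pi (fun j : J => annMeas (Y j)) =
      ((Measure.pi fun j : J => (volume : Measure ℝ).restrict (Set.Ioo 0 (Y j))).prod
        (volume.restrict (angBox J))).map
        (fun (q : (J → ℝ) × (J → ℝ)) (j : J) =>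
          (Complex.exp (-(q.1 j : ℂ)) : ℂ) * expI J q.2 j) := by
  have hmf : Measurable (fun p : ℝ × ℝ => Complex.exp (-(p.1 : ℂ) + (p.2 : ℂ) * Complex.I)) := by
    fun_prop
  have hfin : ∀ j : J, SigmaFinite (Measure.map (fun p : ℝ × ℝ =>
      Complex.exp (-(p.1 : ℂ) + (p.2 : ℂ) * Complex.I))
      ((volume.restrict (Set.Ioo 0 (Y j))).prod (volume.restrict (Set.Ioc (-Real.pi) Real.pi)))) :=
    fun j => (inferInstance : SigmaFinite (annMeas (Y j)))
  have h1 := Measure.pi_map_pi (ι := J) (μ := fun j =>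
    (((volume : Measure ℝ).restrict (Set.Ioo 0 (Y j))).prod
      ((volume : Measure ℝ).restrict (Set.Ioc (-Real.pi) Real.pi))))
    (f := fun _ p => Complex.exp (-(p.1 : ℂ) + (p.2 : ℂ) * Complex.I))
    (hμ := hfin) (fun _ => hmf.aemeasurable)
  have h2 := (measurePreserving_arrowProdEquivProdArrow ℝ ℝ J
    (fun j => (volume : Measure ℝ).restrict (Set.Ioo 0 (Y j)))
    (fun _ => (volume : Measure ℝ).restrict (Set.Ioc (-Real.pi) Real.pi)))
  have h3 : (Measure.pi fun j : J => annMeas (Y j)) = _ := h1.symm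
  rw [h3]
  have h4 : (Measure.pi fun j : J => (volume : Measure ℝ).restrict (Set.Ioo 0 (Y j))).prod
      (volume.restrict (angBox J)) =
      (Measure.pi fun j : J => (volume : Measure ℝ).restrict (Set.Ioo 0 (Y j))).prod
        (Measure.pi fun _ : J => (volume : Measure ℝ).restrict (Set.Ioc (-Real.pi) Real.pi)) := by
    rw [angBox, volume_pi, Measure.restrict_pi_pi]
  rw [h4, ← h2.map_eq, Measure.map_map ?_ h2.measurable]
  · congr 1
    funext x j
    simp only [Function.comp, expI]
    rw [Complex.exp_add]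
    rfl
  · refine measurable_pi_lambda _ fun j => ?_
    have e1 : Measurable fun q : (J → ℝ) × (J → ℝ) => q.1 j :=
      (measurable_pi_apply j).comp measurable_fst
    have e2 : Measurable fun q : (J → ℝ) × (J → ℝ) => expI J q.2 j :=
      (measurable_pi_apply j).comp ((measurable_expI J).comp measurable_snd)
    fun_prop

end Gen

variable {K : Type*} [Fintype K] [DecidableEq K] {J : K → Type*} [∀ k, Fintype (J k)]
  [∀ k, DecidableEq (J k)]

/-- Order and eliminated gap on every neck. -/
abbrev Ch (J : K → Type*) [∀ k, Fintype (J k)] : Type _ :=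
  ∀ k, (Fin (Fintype.card (J k)) ≃ J k) × Fin (Fintype.card (J k) + 1)

/-- Positions from free gaps. -/
def Tmap {A : Type*} [AddCommGroup A] (Y : K → A) (p : Ch J)
    (u : (Σ k, Fin (Fintype.card (J k))) → A) (x : Σ k, J k) : A :=
  gapEquiv (p x.1).2 (Y x.1) (fun i => u ⟨x.1, i⟩) ((p x.1).1.symm x.2)

/-- Domain of all free gaps. -/
def sdom (J : K → Type*) [∀ k, Fintype (J k)] (Y : K → ℝ) :
    Set ((Σ k, Fin (Fintype.card (J k))) → ℝ) :=
  {u | ∀ g, 0 < u g ∧ u g < Y g.1 - ∑ i, u ⟨g.1, i⟩}

/-- uncurrying -/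
def unc {J : K → Type*} {X : Type*} (f : ∀ k, J k → X) (x : Σ k, J k) : X := f x.1 x.2

theorem measurable_unc {J : K → Type*} {X : Type*} [MeasurableSpace X] :
    Measurable (unc : (∀ k, J k → X) → (Σ k, J k) → X) :=
  measurable_pi_lambda _ fun x => (measurable_pi_apply x.2).comp (measurable_pi_apply x.1)

theorem restrict_unc {J : K → Type*} [∀ k, Fintype (J k)] (S : ∀ k, Set (J k → ℝ))
    (T : Set ((Σ k, J k) → ℝ)) (hT : MeasurableSet T) (h : unc ⁻¹' T = Set.univ.pi S) :
    (volume : Measure ((Σ k, J k) → ℝ)).restrict T =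
      (Measure.pi fun k => (volume : Measure (J k → ℝ)).restrict (S k)).map unc := by
  have h1 : (volume : Measure ((Σ k, J k) → ℝ)) =
      (Measure.pi fun k => (volume : Measure (J k → ℝ))).map unc :=
    pi_sigma (fun _ : Σ k, J k => (volume : Measure ℝ))
  rw [h1, Measure.restrict_map measurable_unc hT, h, Measure.restrict_pi_pi]

theorem measurableSet_sdom (Y : K → ℝ) : MeasurableSet (sdom J Y) := by
  have : sdom J Y = ⋂ g : (Σ k, Fin (Fintype.card (J k))),
      ({u | 0 < u g} ∩ {u | u g < Y g.1 - ∑ i, u ⟨g.1, i⟩}) := by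
    ext u; simp [sdom]
  rw [this]
  refine MeasurableSet.iInter fun g => ?_
  refine (measurableSet_lt measurable_const (measurable_pi_apply g)).inter ?_
  refine measurableSet_lt (measurable_pi_apply g) ?_
  refine measurable_const.sub (Finset.measurable_sum _ fun i _ => measurable_pi_apply _)

theorem measurableSet_angBox (J : Type*) [Fintype J] : MeasurableSet (angBox J) :=
  MeasurableSet.univ_pi fun _ => measurableSet_Ioc

theorem real_many {Y : K → ℝ} (hY : ∀ k, 0 < Y k) :
    Measure.pi (fun x : Σ k, J k => (volume : Measure ℝ).restrict (Set.Ioo 0 (Y x.1))) =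
      ∑ p : Ch J, ((volume : Measure ((Σ k, Fin (Fintype.card (J k))) → ℝ)).restrict
        (sdom J Y)).map (Tmap Y p) := by
  have h1 : Measure.pi (fun x : Σ k, J k => (volume : Measure ℝ).restrict (Set.Ioo 0 (Y x.1))) =
      (Measure.pi fun k => Measure.pi fun _ : J k =>
        (volume : Measure ℝ).restrict (Set.Ioo 0 (Y k))).map unc :=
    pi_sigma (fun x : Σ k, J k => (volume : Measure ℝ).restrict (Set.Ioo 0 (Y x.1)))
  rw [h1]
  have h2 : ∀ k, (Measure.pi fun _ : J k => (volume : Measure ℝ).restrict (Set.Ioo 0 (Y k))) =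
      ∑ p : (Fin (Fintype.card (J k)) ≃ J k) × Fin (Fintype.card (J k) + 1),
        (volume.restrict (gdom (Fintype.card (J k)) (Y k))).map
          (fun (u : Fin (Fintype.card (J k)) → ℝ) (j : J k) =>
            gapEquiv p.2 (Y k) u (p.1.symm j)) := by
    intro k
    rw [← cube_measure_eq (hY k), cube, volume_pi, Measure.restrict_pi_pi]
  simp only [h2]
  have hT : ∀ k (p : (Fin (Fintype.card (J k)) ≃ J k) × Fin (Fintype.card (J k) + 1)),
      Measurable (fun (u : Fin (Fintype.card (J k)) → ℝ) (j : J k) =>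
        gapEquiv p.2 (Y k) u (p.1.symm j)) := fun k p =>
    measurable_pi_lambda _ fun j =>
      (measurable_pi_apply (p.1.symm j)).comp (measurable_gapEquiv p.2 (Y k))
  have hsf : ∀ k (p : (Fin (Fintype.card (J k)) ≃ J k) × Fin (Fintype.card (J k) + 1)),
      SigmaFinite ((volume.restrict (gdom (Fintype.card (J k)) (Y k))).map
          (fun (u : Fin (Fintype.card (J k)) → ℝ) (j : J k) =>
            gapEquiv p.2 (Y k) u (p.1.symm j))) := by
    intro k p
    have : (fun (u : Fin (Fintype.card (J k)) → ℝ) (j : J k) =>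
        gapEquiv p.2 (Y k) u (p.1.symm j)) = ordME (Y k) p.1 p.2 := by
      funext u j
      exact (ordME_apply (Y k) p.1 p.2 u j).symm
    rw [this, map_ordME]
    infer_instance
  rw [pi_sum_dep, Measure.map_finset_sum' measurable_unc.aemeasurable]
  refine Finset.sum_congr rfl fun p _ => ?_
  rw [← Measure.pi_map_pi (hμ := fun k => hsf k (p k)) (fun k => (hT k (p k)).aemeasurable),
    restrict_unc (fun k => gdom (Fintype.card (J k)) (Y k)) (sdom J Y) (measurableSet_sdom Y)
      (by
        ext f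
        simp only [Set.mem_preimage, sdom, Set.mem_ofPred_eq, Set.mem_univ_pi, gdom, unc]
        exact ⟨fun h k i => h ⟨k, i⟩, fun h g => h g.1 g.2⟩)]
  have hm1 : Measurable (fun (x : (i : K) → Fin (Fintype.card (J i)) → ℝ) (i : K) (j : J i) =>
      gapEquiv (p i).2 (Y i) (x i) ((p i).1.symm j)) :=
    measurable_pi_lambda _ fun k => (hT k (p k)).comp (measurable_pi_apply k)
  have hm2 : Measurable (Tmap Y p : ((Σ k, Fin (Fintype.card (J k))) → ℝ) → _) := by
    refine measurable_pi_lambda _ fun x => ?_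
    have e1 : Measurable fun u : ((Σ k, Fin (Fintype.card (J k))) → ℝ) =>
        (fun i => u ⟨x.1, i⟩ : Fin (Fintype.card (J x.1)) → ℝ) :=
      measurable_pi_lambda _ fun i => measurable_pi_apply _
    exact (measurable_pi_apply _).comp ((measurable_gapEquiv _ _).comp e1)
  rw [Measure.map_map measurable_unc hm1, Measure.map_map hm2 measurable_unc]
  rfl

theorem angle_many (a : K → ℝ) (p : Ch J) :
    (volume.restrict (angBox (Σ k, J k))).map (expI (Σ k, J k)) =
      (volume.restrict (angBox (Σ k, Fin (Fintype.card (J k))))).map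
        (fun (θ : (Σ k, Fin (Fintype.card (J k))) → ℝ) (x : Σ k, J k) =>
          Complex.exp (((Tmap a p θ x : ℝ) : ℂ) * Complex.I)) := by
  rw [restrict_unc (fun k => angBox (J k)) (angBox (Σ k, J k)) (measurableSet_angBox _) (by
        ext f
        simp only [Set.mem_preimage, angBox, Set.mem_univ_pi, unc]
        exact ⟨fun h k i => h ⟨k, i⟩, fun h g => h g.1 g.2⟩),
    restrict_unc (fun k => angBox (Fin (Fintype.card (J k))))
      (angBox (Σ k, Fin (Fintype.card (J k)))) (measurableSet_angBox _) (by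
        ext f
        simp only [Set.mem_preimage, angBox, Set.mem_univ_pi, unc]
        exact ⟨fun h k i => h ⟨k, i⟩, fun h g => h g.1 g.2⟩)]
  have hT : ∀ k, Measurable (fun (θ : Fin (Fintype.card (J k)) → ℝ) (j : J k) =>
      Complex.exp (((gapEquiv (p k).2 (a k) θ ((p k).1.symm j) : ℝ) : ℂ) * Complex.I)) := by
    intro k
    refine measurable_pi_lambda _ fun j => ?_
    have : Measurable fun θ : Fin (Fintype.card (J k)) → ℝ =>
        gapEquiv (p k).2 (a k) θ ((p k).1.symm j) :=
      (measurable_pi_apply _).comp (measurable_gapEquiv (p k).2 (a k))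
    fun_prop
  have hm2 : Measurable (fun (θ : (Σ k, Fin (Fintype.card (J k))) → ℝ) (x : Σ k, J k) =>
      Complex.exp (((Tmap a p θ x : ℝ) : ℂ) * Complex.I)) := by
    refine measurable_pi_lambda _ fun x => ?_
    have e1 : Measurable fun u : ((Σ k, Fin (Fintype.card (J k))) → ℝ) =>
        (fun i => u ⟨x.1, i⟩ : Fin (Fintype.card (J x.1)) → ℝ) :=
      measurable_pi_lambda _ fun i => measurable_pi_apply _
    have e2 : Measurable fun θ : ((Σ k, Fin (Fintype.card (J k))) → ℝ) => Tmap a p θ x :=
      (measurable_pi_apply _).comp ((measurable_gapEquiv _ _).comp e1)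
    fun_prop
  rw [Measure.map_map (measurable_expI _) measurable_unc, Measure.map_map hm2 measurable_unc]
  have e1 : (expI (Σ k, J k) ∘ unc) =
      unc ∘ (fun (f : ∀ k, J k → ℝ) k => expI (J k) (f k)) := rfl
  have e2 : ((fun (θ : (Σ k, Fin (Fintype.card (J k))) → ℝ) (x : Σ k, J k) =>
      Complex.exp (((Tmap a p θ x : ℝ) : ℂ) * Complex.I)) ∘ unc) =
      unc ∘ (fun (f : ∀ k, Fin (Fintype.card (J k)) → ℝ) k =>
        (fun (j : J k) => Complex.exp (((gapEquiv (p k).2 (a k) (f k) ((p k).1.symm j) : ℝ) : ℂ) *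
          Complex.I))) := rfl
  have hfin : ∀ (I : Type _) (_ : Fintype I), IsFiniteMeasure
      ((volume : Measure (I → ℝ)).restrict (angBox I)) := by
    intro I _
    refine ⟨?_⟩
    rw [Measure.restrict_apply_univ, angBox, volume_pi_pi]
    exact ENNReal.prod_lt_top fun _ _ => measure_Ioc_lt_top
  have i1 : ∀ k, IsFiniteMeasure ((volume : Measure (J k → ℝ)).restrict (angBox (J k))) :=
    fun k => hfin (J k) inferInstance
  have s1 : ∀ k, SigmaFinite (((volume : Measure (J k → ℝ)).restrict (angBox (J k))).map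
      (expI (J k))) := fun k => inferInstance
  have s2 : ∀ k, SigmaFinite (((volume : Measure (Fin (Fintype.card (J k)) → ℝ)).restrict
      (angBox (Fin (Fintype.card (J k))))).map
      (fun (θ : Fin (Fintype.card (J k)) → ℝ) (j : J k) =>
      Complex.exp (((gapEquiv (p k).2 (a k) θ ((p k).1.symm j) : ℝ) : ℂ) * Complex.I))) := by
    intro k
    rw [← map_angle_lab (p k).1 (p k).2 (a k)]
    infer_instance
  have hA : Measurable (fun (f : ∀ k, J k → ℝ) k => expI (J k) (f k)) :=
    measurable_pi_lambda _ fun k => (measurable_expI (J k)).comp (measurable_pi_apply k)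
  have hB : Measurable (fun (f : ∀ k, Fin (Fintype.card (J k)) → ℝ) k =>
        (fun (j : J k) => Complex.exp (((gapEquiv (p k).2 (a k) (f k) ((p k).1.symm j) : ℝ) : ℂ) *
          Complex.I))) :=
    measurable_pi_lambda _ fun k => (hT k).comp (measurable_pi_apply k)
  rw [e1, e2, ← Measure.map_map measurable_unc hA, ← Measure.map_map measurable_unc hB,
    Measure.pi_map_pi (hμ := s1) (fun k => (measurable_expI (J k)).aemeasurable),
    Measure.pi_map_pi (hμ := s2) (fun k => (hT k).aemeasurable)]
  congr 2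
  funext k
  exact map_angle_lab (p k).1 (p k).2 (a k)

theorem measurable_Tmap (Y : K → ℝ) (p : Ch J) :
    Measurable (Tmap Y p : ((Σ k, Fin (Fintype.card (J k))) → ℝ) → _) := by
  refine measurable_pi_lambda _ fun x => ?_
  have e1 : Measurable fun u : ((Σ k, Fin (Fintype.card (J k))) → ℝ) =>
      (fun i => u ⟨x.1, i⟩ : Fin (Fintype.card (J x.1)) → ℝ) :=
    measurable_pi_lambda _ fun i => measurable_pi_apply _
  exact (measurable_pi_apply _).comp ((measurable_gapEquiv _ _).comp e1)

/-- The neck coordinates `U / c` of all marks on necks. -/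
noncomputable def zN (Y a : K → ℝ) (p : Ch J) (u θ : (Σ k, Fin (Fintype.card (J k))) → ℝ)
    (x : Σ k, J k) : ℂ :=
  Complex.exp (-((Tmap Y p u x : ℝ) : ℂ) + ((Tmap a p θ x : ℝ) : ℂ) * Complex.I)

/-- **Marks on several necks.** -/
theorem pi_annMeas_many {Y : K → ℝ} (hY : ∀ k, 0 < Y k) (a : K → ℝ) :
    Measure.pi (fun x : Σ k, J k => annMeas (Y x.1)) =
      ∑ p : Ch J, ((volume.restrict (sdom J Y)).prod
        (volume.restrict (angBox (Σ k, Fin (Fintype.card (J k)))))).map
          (fun q => zN Y a p q.1 q.2) := by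
  have hF : Measurable (fun (q : ((Σ k, J k) → ℝ) × ((Σ k, J k) → ℂ)) (j : Σ k, J k) =>
      (Complex.exp (-(q.1 j : ℂ)) : ℂ) * q.2 j) := by
    refine measurable_pi_lambda _ fun j => ?_
    have e1 : Measurable fun q : ((Σ k, J k) → ℝ) × ((Σ k, J k) → ℂ) => q.1 j :=
      (measurable_pi_apply j).comp measurable_fst
    have e2 : Measurable fun q : ((Σ k, J k) → ℝ) × ((Σ k, J k) → ℂ) => q.2 j :=
      (measurable_pi_apply j).comp measurable_snd
    fun_prop
  have i1 : IsFiniteMeasure ((volume : Measure ((Σ k, J k) → ℝ)).restrict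
      (angBox (Σ k, J k))) := by
    refine ⟨?_⟩
    rw [Measure.restrict_apply_univ, angBox, volume_pi_pi]
    exact ENNReal.prod_lt_top fun _ _ => measure_Ioc_lt_top
  have i2 : IsFiniteMeasure ((volume : Measure ((Σ k, Fin (Fintype.card (J k))) → ℝ)).restrict
      (angBox (Σ k, Fin (Fintype.card (J k))))) := by
    refine ⟨?_⟩
    rw [Measure.restrict_apply_univ, angBox, volume_pi_pi]
    exact ENNReal.prod_lt_top fun _ _ => measure_Ioc_lt_top
  have e1 : (fun (q : ((Σ k, J k) → ℝ) × ((Σ k, J k) → ℝ)) (j : Σ k, J k) =>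
      (Complex.exp (-(q.1 j : ℂ)) : ℂ) * expI (Σ k, J k) q.2 j) =
      (fun (q : ((Σ k, J k) → ℝ) × ((Σ k, J k) → ℂ)) (j : Σ k, J k) =>
        (Complex.exp (-(q.1 j : ℂ)) : ℂ) * q.2 j) ∘ (Prod.map id (expI (Σ k, J k))) := rfl
  rw [pi_annMeas', e1, ← Measure.map_map hF (measurable_id.prodMap (measurable_expI _)),
    ← Measure.map_prod_map _ _ measurable_id (measurable_expI _), Measure.map_id,
    real_many hY]
  have hsum : ∀ (f : Ch J → Measure ((Σ k, J k) → ℝ)) (μ : Measure ((Σ k, J k) → ℂ)) [SFinite μ],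
      (∑ p, f p).prod μ = ∑ p, (f p).prod μ := by
    intro f μ _
    rw [← Measure.sum_fintype, ← Measure.sum_fintype, Measure.prod_sum_left]
  rw [hsum, Measure.map_finset_sum' hF.aemeasurable]
  refine Finset.sum_congr rfl fun p _ => ?_
  have hT := measurable_Tmap Y p
  have hA : Measurable (fun (θ : (Σ k, Fin (Fintype.card (J k))) → ℝ) (x : Σ k, J k) =>
      Complex.exp (((Tmap a p θ x : ℝ) : ℂ) * Complex.I)) := by
    refine measurable_pi_lambda _ fun x => ?_
    have e2 : Measurable fun θ : ((Σ k, Fin (Fintype.card (J k))) → ℝ) => Tmap a p θ x :=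
      (measurable_pi_apply x).comp (measurable_Tmap a p)
    fun_prop
  rw [angle_many a p, Measure.map_prod_map _ _ hT hA, Measure.map_map hF (hT.prodMap hA)]
  congr 1
  funext q j
  simp only [Function.comp, Prod.map]
  exact (Complex.exp_add _ _).symm

end Vale.Agent.P273.H852
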