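import Vale.Agent.P273.H852.Order3
import Vale.Agent.P273.H852.RegionDefs

/-!
One mark: the part of the curve over the neck ellipse in logarithmic polar coordinates.
-/

namespace Vale.Agent.P273.H852

open MeasureTheory Finset

set_option linter.unusedSectionVars false

/-- Fundamental strip of the logarithm. -/
def strip (Y : ℝ) : Set ℂ := {w | -Y < w.re ∧ w.re < 0 ∧ -Real.pi < w.im ∧ w.im ≤ Real.pi}

theorem measurableSet_strip (Y : ℝ) : MeasurableSet (strip Y) := by
  have : strip Y = ({w | -Y < w.re} ∩ {w | w.re < 0}) ∩ ({w | -Real.pi < w.im} ∩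
      {w | w.im ≤ Real.pi}) := by
    ext w; simp [strip, and_assoc]
  rw [this]
  refine MeasurableSet.inter (MeasurableSet.inter ?_ ?_) (MeasurableSet.inter ?_ ?_)
  · exact measurableSet_lt measurable_const Complex.measurable_re
  · exact measurableSet_lt Complex.measurable_re measurable_const
  · exact measurableSet_lt measurable_const Complex.measurable_im
  · exact measurableSet_le Complex.measurable_im measurable_const

theorem annMeas_eq_exp (Y : ℝ) : annMeas Y = (volume.restrict (strip Y)).map Complex.exp := by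
  let e : (ℝ × ℝ) ≃ᵐ ℂ := ((MeasurableEquiv.neg ℝ).prodCongr (MeasurableEquiv.refl ℝ)).trans
    Complex.measurableEquivRealProd.symm
  have he : ∀ p : ℝ × ℝ, e p = -(p.1 : ℂ) + (p.2 : ℂ) * Complex.I := by
    intro p
    apply Complex.ext
    · show -p.1 = _; simp
    · show p.2 = _; simp
  have hmp : MeasurePreserving e (volume : Measure (ℝ × ℝ)) volume := by
    have h1 : MeasurePreserving (Prod.map (fun x : ℝ => -x) (id : ℝ → ℝ))
        ((volume : Measure ℝ).prod (volume : Measure ℝ)) (volume.prod volume) :=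
      (Measure.measurePreserving_neg (volume : Measure ℝ)).prod (MeasurePreserving.id _)
    exact (Complex.volume_preserving_equiv_real_prod.symm _).comp h1
  have hpre : e ⁻¹' strip Y = (Set.Ioo 0 Y) ×ˢ (Set.Ioc (-Real.pi) Real.pi) := by
    ext p
    simp only [Set.mem_preimage, he, strip, Set.mem_ofPred_eq, Set.mem_prod, Set.mem_Ioo,
      Set.mem_Ioc, Complex.add_re, Complex.neg_re, Complex.ofReal_re, Complex.mul_re,
      Complex.ofReal_im, Complex.I_re, Complex.I_im, Complex.add_im, Complex.neg_im,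
      Complex.mul_im]
    constructor
    · rintro ⟨h1, h2, h3, h4⟩
      refine ⟨⟨by linarith, by linarith⟩, by linarith, by linarith⟩
    · rintro ⟨⟨h1, h2⟩, h3, h4⟩
      refine ⟨by linarith, by linarith, by linarith, by linarith⟩
  have h2 : (volume.restrict (strip Y)) =
      ((volume.restrict (Set.Ioo 0 Y)).prod (volume.restrict (Set.Ioc (-Real.pi) Real.pi))).map e := by
    rw [Measure.prod_restrict, ← hpre, ← Measure.volume_eq_prod, ← MeasurableEquiv.restrict_map,
      hmp.map_eq]
  rw [h2, Measure.map_map Complex.measurable_exp e.measurable, annMeas]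
  congr 1
  funext p
  simp only [Function.comp, he]

theorem map_angle_sub (a : ℝ) :
    (volume.restrict (Set.Ioc (-Real.pi) Real.pi)).map
        (fun φ : ℝ => Complex.exp (((a - φ : ℝ) : ℂ) * Complex.I)) =
      (volume.restrict (Set.Ioc (-Real.pi) Real.pi)).map
        (fun φ : ℝ => Complex.exp ((φ : ℂ) * Complex.I)) := by
  set T : ℝ := 2 * Real.pi with hT
  have h := AddCircle.measurePreserving_mk T (-Real.pi)
  have e : -Real.pi + T = Real.pi := by rw [hT]; ring
  rw [e] at h
  let c : AddCircle T → ℂ := fun x => (AddCircle.toCircle x : ℂ)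
  have hc : Measurable c :=
    (Continuous.comp (continuous_subtype_val) AddCircle.continuous_toCircle).measurable
  have hcx : ∀ x : ℝ, c (x : AddCircle T) = Complex.exp ((x : ℂ) * Complex.I) := by
    intro x
    show ((AddCircle.toCircle (x : AddCircle T) : Circle) : ℂ) = _
    rw [AddCircle.toCircle_apply_mk, Circle.coe_exp, hT, div_self Real.two_pi_pos.ne', one_mul]
  have e1 : (fun φ : ℝ => Complex.exp ((φ : ℂ) * Complex.I)) =
      c ∘ (fun x : ℝ => (x : AddCircle T)) := by
    funext φ; exact (hcx φ).symm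
  have e2 : (fun φ : ℝ => Complex.exp (((a - φ : ℝ) : ℂ) * Complex.I)) =
      (c ∘ (fun x => (a : AddCircle T) - x)) ∘ (fun x : ℝ => (x : AddCircle T)) := by
    funext φ; exact (hcx (a - φ)).symm
  have hs := Measure.measurePreserving_sub_left (volume : Measure (AddCircle T)) (a : AddCircle T)
  rw [e1, e2, ← Measure.map_map (hc.comp hs.measurable) h.measurable, h.map_eq,
    ← Measure.map_map hc hs.measurable, hs.map_eq, ← Measure.map_map hc h.measurable, h.map_eq]

theorem Ioo_split {Y : ℝ} (_hY : 0 < Y) :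
    (volume : Measure ℝ).restrict (Set.Ioo 0 Y) = volume.restrict (Set.Ioo 0 (Y / 2)) +
      (volume.restrict (Set.Ioo 0 (Y / 2))).map (fun t => Y - t) := by
  let e : ℝ ≃ᵐ ℝ := MeasurableEquiv.subLeft Y
  have he : ∀ t, e t = Y - t := fun t => rfl
  have hmp : MeasurePreserving e (volume : Measure ℝ) volume :=
    Measure.measurePreserving_sub_left volume Y
  have hpre : e ⁻¹' (Set.Ioo (Y / 2) Y) = Set.Ioo 0 (Y / 2) := by
    ext t
    simp only [Set.mem_preimage, he, Set.mem_Ioo]
    constructor
    · rintro ⟨h1, h2⟩; constructor <;> linarith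
    · rintro ⟨h1, h2⟩; constructor <;> linarith
  have h2 : (volume.restrict (Set.Ioo 0 (Y / 2))).map (fun t => Y - t) =
      volume.restrict (Set.Ioo (Y / 2) Y) := by
    have : (fun t => Y - t) = (e : ℝ → ℝ) := by funext t; rfl
    rw [this, ← hpre, ← MeasurableEquiv.restrict_map, hmp.map_eq]
  rw [h2, ← Measure.restrict_union]
  · apply Measure.restrict_congr_set
    have : Set.Ioo 0 (Y / 2) ∪ Set.Ioo (Y / 2) Y = Set.Ioo 0 Y \ {Y / 2} := by
      ext t
      simp only [Set.mem_union, Set.mem_Ioo, Set.mem_sdiff, Set.mem_singleton_iff]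
      constructor
      · rintro (⟨h1, h2⟩ | ⟨h1, h2⟩)
        · exact ⟨⟨h1, by linarith⟩, h2.ne⟩
        · exact ⟨⟨by linarith, h2⟩, h1.ne'⟩
      · rintro ⟨⟨h1, h2⟩, h3⟩
        rcases lt_or_gt_of_ne h3 with h | h
        · exact Or.inl ⟨h1, h⟩
        · exact Or.inr ⟨h, h2⟩
    rw [this]
    exact (sdiff_null_ae_eq_self (by simp)).symm
  · rw [Set.disjoint_left]
    rintro t ⟨_, h1⟩ ⟨h2, _⟩
    exact lt_asymm h1 h2
  · exact measurableSet_Ioo

/-- The annulus is the union of its outer half and the image of it under the inversion. -/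
theorem annMeas_split {Y : ℝ} (hY : 0 < Y) (a : ℝ) :
    annMeas Y = annMeas (Y / 2) + (annMeas (Y / 2)).map
      (fun z => Complex.exp (-(Y : ℂ) + (a : ℂ) * Complex.I) / z) := by
  set A := (volume : Measure ℝ).restrict (Set.Ioc (-Real.pi) Real.pi) with hA
  have iA : IsFiniteMeasure A :=
    ⟨by rw [hA, Measure.restrict_apply_univ]; exact measure_Ioc_lt_top⟩
  let E : ℝ → ℂ := fun φ => Complex.exp ((φ : ℂ) * Complex.I)
  have hE : Measurable E := by fun_prop
  let M : ℝ × ℂ → ℂ := fun p => Complex.exp (-(p.1 : ℂ)) * p.2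
  have hM : Measurable M := by fun_prop
  have key : ∀ μ : Measure ℝ, ∀ [SFinite μ], (μ.prod A).map
      (fun p : ℝ × ℝ => Complex.exp (-(p.1 : ℂ) + (p.2 : ℂ) * Complex.I)) =
      (μ.prod (A.map E)).map M := by
    intro μ _
    have : μ.prod (A.map E) = (μ.prod A).map (Prod.map id E) := by
      rw [← Measure.map_prod_map _ _ measurable_id hE, Measure.map_id]
    rw [this, Measure.map_map hM (measurable_id.prodMap hE)]
    congr 1
    funext p
    simp only [Function.comp, M, E, Prod.map, id]
    rw [Complex.exp_add]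
  have hf : Measurable (fun p : ℝ × ℝ => Complex.exp (-(p.1 : ℂ) + (p.2 : ℂ) * Complex.I)) := by
    fun_prop
  have h1 : annMeas Y = ((volume.restrict (Set.Ioo 0 (Y / 2))).prod A).map
      (fun p : ℝ × ℝ => Complex.exp (-(p.1 : ℂ) + (p.2 : ℂ) * Complex.I)) +
      (((volume.restrict (Set.Ioo 0 (Y / 2))).map (fun t => Y - t)).prod A).map
      (fun p : ℝ × ℝ => Complex.exp (-(p.1 : ℂ) + (p.2 : ℂ) * Complex.I)) := by
    rw [annMeas, Ioo_split hY, Measure.add_prod, Measure.map_add _ _ hf]
  rw [h1]
  congr 1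
  rw [key, ← map_angle_sub a, annMeas]
  have hE2 : Measurable (fun φ : ℝ => Complex.exp (((a - φ : ℝ) : ℂ) * Complex.I)) := by fun_prop
  have hS : Measurable (fun t : ℝ => Y - t) := by fun_prop
  have hI : Measurable (fun z : ℂ => Complex.exp (-(Y : ℂ) + (a : ℂ) * Complex.I) / z) := by
    fun_prop
  rw [Measure.map_prod_map _ _ hS hE2, Measure.map_map hM (hS.prodMap hE2),
    Measure.map_map hI hf]
  congr 1
  funext p
  simp only [Function.comp, M, Prod.map]
  rw [← Complex.exp_add, ← Complex.exp_sub]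
  congr 1
  push_cast
  ring

end Vale.Agent.P273.H852
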