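import Vale.Agent.P273.H852.Neck

/-!
Change of variables on half of the neck.
-/

namespace Vale.Agent.P273.H852

open MeasureTheory Finset

set_option linter.unusedSectionVars false

theorem withDensity_map' {α β : Type*} [MeasurableSpace α] [MeasurableSpace β] {μ : Measure α}
    {f : α → β} (hf : Measurable f) {g : β → ENNReal} (hg : Measurable g) :
    (μ.map f).withDensity g = (μ.withDensity (fun x => g (f x))).map f := by
  ext s hs
  rw [withDensity_apply _ hs, Measure.map_apply hf hs, withDensity_apply _ (hf hs),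
    Measure.restrict_map hf hs, lintegral_map hg hf]

/-- `x` coordinate on the neck as a function of the logarithm `w`. -/
noncomputable def Psi (e κ : ℂ) (c : ℝ) (w : ℂ) : ℂ :=
  e + ((c : ℂ) * Complex.exp w + (c : ℂ) * κ / Complex.exp w) / 2

theorem hasDerivAt_Psi (e κ : ℂ) (c : ℝ) (w : ℂ) :
    HasDerivAt (Psi e κ c) (((c : ℂ) * Complex.exp w - (c : ℂ) * κ / Complex.exp w) / 2) w := by
  have h1 := (Complex.hasDerivAt_exp w)
  have h2 : HasDerivAt (fun w : ℂ => (c : ℂ) * κ / Complex.exp w)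
      (-((c : ℂ) * κ / Complex.exp w)) w := by
    have := (h1.inv (Complex.exp_ne_zero w)).const_mul ((c : ℂ) * κ)
    refine (this.congr_deriv ?_).congr_of_eventuallyEq ?_
    · field_simp
    · exact Filter.Eventually.of_forall fun z => by
        simp [div_eq_mul_inv]
  have h3 := (((h1.const_mul (c : ℂ)).add h2).div_const 2).const_add e
  refine (h3.congr_deriv ?_)
  ring

theorem det_smulRight (d : ℂ) :
    (((ContinuousLinearMap.smulRight (1 : ℂ →L[ℂ] ℂ) d).restrictScalars ℝ) : ℂ →L[ℝ] ℂ).det =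
      ‖d‖ ^ 2 := by
  have h : (((ContinuousLinearMap.smulRight (1 : ℂ →L[ℂ] ℂ) d).restrictScalars ℝ) :
      ℂ →L[ℝ] ℂ).det = LinearMap.det (((ContinuousLinearMap.smulRight (1 : ℂ →L[ℂ] ℂ)
        d).toLinearMap).restrictScalars ℝ) := rfl
  rw [h, LinearMap.det_restrictScalars, Algebra.norm_complex_apply]
  have h2 : LinearMap.det ((ContinuousLinearMap.smulRight (1 : ℂ →L[ℂ] ℂ) d).toLinearMap) = d := by
    have : (ContinuousLinearMap.smulRight (1 : ℂ →L[ℂ] ℂ) d).toLinearMap =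
        d • (LinearMap.id : ℂ →ₗ[ℂ] ℂ) := by
      ext; simp
    rw [this, LinearMap.det_smul]
    simp
  rw [h2, Complex.normSq_eq_norm_sq]

section Half

variable {e κ : ℂ} {c Y : ℝ}

theorem norm_kappa {Y a : ℝ} {κ : ℂ} (h : κ = Complex.exp (-(Y : ℂ) + (a : ℂ) * Complex.I)) :
    ‖κ‖ = Real.exp (-Y) := by
  rw [h, Complex.norm_exp]
  simp

theorem injOn_Psi (hc : 0 < c) (hκ : ‖κ‖ = Real.exp (-Y)) :
    Set.InjOn (Psi e κ c) (strip (Y / 2)) := by
  intro w1 h1 w2 h2 h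
  have hcc : (c : ℂ) ≠ 0 := by exact_mod_cast hc.ne'
  set z1 := Complex.exp w1 with hz1
  set z2 := Complex.exp w2 with hz2
  have n1 : z1 ≠ 0 := Complex.exp_ne_zero _
  have n2 : z2 ≠ 0 := Complex.exp_ne_zero _
  have hh : z1 + κ / z1 = z2 + κ / z2 := by
    have h' : e + ((c : ℂ) * z1 + (c : ℂ) * κ / z1) / 2 =
      e + ((c : ℂ) * z2 + (c : ℂ) * κ / z2) / 2 := h
    have h3 : (c : ℂ) * (z1 + κ / z1) = (c : ℂ) * (z2 + κ / z2) := by
      have h4 := add_left_cancel h'
      have h5 : ((c : ℂ) * z1 + (c : ℂ) * κ / z1) = ((c : ℂ) * z2 + (c : ℂ) * κ / z2) := by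
        have := congrArg (fun x => x * 2) h4
        simpa using this
      rw [mul_add, mul_add, ← mul_div_assoc, ← mul_div_assoc, h5]
    exact mul_left_cancel₀ hcc h3
  have hprod : (z1 - z2) * (z1 * z2 - κ) = 0 := by
    field_simp at hh
    linear_combination hh
  rcases mul_eq_zero.1 hprod with h3 | h3
  · exact Complex.exp_inj_of_neg_pi_lt_of_le_pi h1.2.2.1 h1.2.2.2 h2.2.2.1 h2.2.2.2
      (sub_eq_zero.1 h3)
  · exfalso
    have h4 : ‖z1 * z2‖ = Real.exp (-Y) := by rw [sub_eq_zero.1 h3, hκ]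
    rw [norm_mul, hz1, hz2, Complex.norm_exp, Complex.norm_exp, ← Real.exp_add] at h4
    have h5 := Real.exp_injective h4
    have := h1.1
    have := h2.1
    linarith

theorem exists_log {U : ℂ} (hc : 0 < c) (hU : ‖U‖ < c) (hU2 : Real.exp (-(Y / 2)) * c ≤ ‖U‖) :
    ∃ w : ℂ, (c : ℂ) * Complex.exp w = U ∧ -(Y / 2) ≤ w.re ∧ w.re < 0 ∧ -Real.pi < w.im ∧
      w.im ≤ Real.pi := by
  have hcc : (c : ℂ) ≠ 0 := by exact_mod_cast hc.ne'
  have hU0 : 0 < ‖U‖ := lt_of_lt_of_le (by positivity) hU2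
  have hne : U / c ≠ 0 := div_ne_zero (norm_pos_iff.1 hU0) hcc
  have hn : ‖U / (c : ℂ)‖ = ‖U‖ / c := by
    rw [norm_div, Complex.norm_real, Real.norm_of_nonneg hc.le]
  refine ⟨Complex.log (U / c), ?_, ?_, ?_, ?_, ?_⟩
  · rw [Complex.exp_log hne]
    field_simp
  · rw [Complex.log_re, hn, Real.le_log_iff_exp_le (by positivity), le_div_iff₀ hc]
    exact hU2
  · rw [Complex.log_re, hn]
    exact Real.log_neg (by positivity) ((div_lt_one hc).2 hU)
  · exact Complex.neg_pi_lt_log_im _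
  · exact Complex.log_im_le_pi _

theorem ell_subset (hc : 0 < c) (hκ : ‖κ‖ = Real.exp (-Y)) :
    ell e ((c : ℂ) ^ 2 * κ) c ⊆ Psi e κ c '' (strip (Y / 2)) ∪
      Psi e κ c '' {w : ℂ | w.re = -(Y / 2)} := by
  have hcc : (c : ℂ) ≠ 0 := by exact_mod_cast hc.ne'
  have key : ∀ x U V : ℂ, U * V = (c : ℂ) ^ 2 * κ → U + V = 2 * (x - e) → ‖U‖ < c → ‖V‖ ≤ ‖U‖ →
      x ∈ Psi e κ c '' (strip (Y / 2)) ∪ Psi e κ c '' {w : ℂ | w.re = -(Y / 2)} := by
    intro x U V h1 h2 h3 h4
    have h5 : (Real.exp (-(Y / 2)) * c) ^ 2 ≤ ‖U‖ ^ 2 := by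
      have : (Real.exp (-(Y / 2)) * c) ^ 2 = ‖U * V‖ := by
        rw [h1, norm_mul, norm_pow, Complex.norm_real, Real.norm_of_nonneg hc.le, hκ, mul_pow,
          ← Real.exp_nat_mul]
        have : ((2 : ℕ) : ℝ) * (-(Y / 2)) = -Y := by push_cast; ring
        rw [this]; ring
      rw [this, norm_mul, sq]
      exact mul_le_mul_of_nonneg_left h4 (norm_nonneg _)
    have h6 : Real.exp (-(Y / 2)) * c ≤ ‖U‖ := by
      exact (sq_le_sq₀ (by positivity) (norm_nonneg _)).1 h5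
    obtain ⟨w, hw, hw1, hw2, hw3, hw4⟩ := exists_log hc h3 h6
    have hUne : U ≠ 0 := by
      rw [← hw]; exact mul_ne_zero hcc (Complex.exp_ne_zero _)
    have hPsi : Psi e κ c w = x := by
      rw [Psi, hw]
      have hV : (c : ℂ) * κ / Complex.exp w = V := by
        have he : Complex.exp w = U / c := by rw [← hw]; field_simp
        rw [he]
        field_simp
        rw [← h1]
      rw [hV, h2]
      ring
    rcases eq_or_lt_of_le hw1 with h | h
    · exact Or.inr ⟨w, h.symm, hPsi⟩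
    · exact Or.inl ⟨w, ⟨h, hw2, hw3, hw4⟩, hPsi⟩
  rintro x ⟨U, V, h1, h2, h3, h4⟩
  rcases le_total ‖V‖ ‖U‖ with h | h
  · exact key x U V h1 h2 h3 h
  · exact key x V U (by rw [mul_comm]; exact h1) (by rw [add_comm]; exact h2) h4 h

theorem image_subset (hc : 0 < c) (_hY : 0 < Y) (hκ : ‖κ‖ = Real.exp (-Y)) :
    Psi e κ c '' (strip (Y / 2)) ⊆ ell e ((c : ℂ) ^ 2 * κ) c := by
  rintro x ⟨w, ⟨h1, h2, h3, h4⟩, rfl⟩
  refine ⟨(c : ℂ) * Complex.exp w, (c : ℂ) * κ / Complex.exp w, ?_, ?_, ?_, ?_⟩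
  · have := Complex.exp_ne_zero w
    field_simp
  · rw [Psi]; ring
  · rw [norm_mul, Complex.norm_real, Real.norm_of_nonneg hc.le, Complex.norm_exp]
    have : Real.exp w.re < 1 := (Real.exp_lt_one_iff).2 h2
    nlinarith
  · rw [norm_div, norm_mul, Complex.norm_real, Real.norm_of_nonneg hc.le, Complex.norm_exp, hκ,
      mul_div_assoc, ← Real.exp_sub]
    have : Real.exp (-Y - w.re) < 1 := (Real.exp_lt_one_iff).2 (by linarith)
    nlinarith

theorem null_line (Y : ℝ) : volume {w : ℂ | w.re = -(Y / 2)} = 0 := by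
  have h : {w : ℂ | w.re = -(Y / 2)} = Complex.measurableEquivRealProd ⁻¹'
      ({-(Y / 2)} ×ˢ Set.univ) := by
    ext w
    simp [Complex.measurableEquivRealProd]
  rw [h, Complex.volume_preserving_equiv_real_prod.measure_preimage_equiv,
    Measure.volume_eq_prod, Measure.prod_prod]
  simp

theorem image_ae (hc : 0 < c) (hY : 0 < Y) (hκ : ‖κ‖ = Real.exp (-Y)) :
    (Psi e κ c '' (strip (Y / 2)) : Set ℂ) =ᵐ[volume] ell e ((c : ℂ) ^ 2 * κ) c := by
  have hnull : volume (Psi e κ c '' {w : ℂ | w.re = -(Y / 2)}) = 0 := by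
    apply addHaar_image_eq_zero_of_differentiableOn_of_addHaar_eq_zero
    · intro w _
      exact ((hasDerivAt_Psi e κ c w).differentiableAt.restrictScalars ℝ).differentiableWithinAt
    · exact null_line Y
  refine Filter.EventuallyLE.antisymm ?_ ?_
  · exact (image_subset hc hY hκ).eventuallyLE
  · have h1 : (ell e ((c : ℂ) ^ 2 * κ) c) ≤ᵐ[volume] (Psi e κ c '' (strip (Y / 2)) ∪
        Psi e κ c '' {w : ℂ | w.re = -(Y / 2)} : Set ℂ) := (ell_subset hc hκ).eventuallyLE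
    refine h1.trans ?_
    exact (union_ae_eq_left_of_ae_eq_empty (ae_eq_empty.2 hnull)).le

/-- Change of variables. -/
theorem half_neck (hc : 0 < c) (hY : 0 < Y) (hκ : ‖κ‖ = Real.exp (-Y)) :
    ((annMeas (Y / 2)).withDensity (fun z => ENNReal.ofReal
      (‖((c : ℂ) * z - (c : ℂ) * κ / z) / 2‖ ^ 2))).map
        (fun z => e + ((c : ℂ) * z + (c : ℂ) * κ / z) / 2) =
      volume.restrict (ell e ((c : ℂ) ^ 2 * κ) c) := by
  have hg : Measurable (fun z : ℂ => ENNReal.ofReal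
      (‖((c : ℂ) * z - (c : ℂ) * κ / z) / 2‖ ^ 2)) := by fun_prop
  have hX : Measurable (fun z : ℂ => e + ((c : ℂ) * z + (c : ℂ) * κ / z) / 2) := by fun_prop
  rw [annMeas_eq_exp, withDensity_map' Complex.measurable_exp hg,
    Measure.map_map hX Complex.measurable_exp, ← Measure.restrict_congr_set (image_ae hc hY hκ)]
  have h := map_withDensity_abs_det_fderiv_eq_addHaar (volume : Measure ℂ) (f := Psi e κ c)
    (f' := fun w => ((ContinuousLinearMap.smulRight (1 : ℂ →L[ℂ] ℂ)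
      (((c : ℂ) * Complex.exp w - (c : ℂ) * κ / Complex.exp w) / 2)).restrictScalars ℝ))
    (s := strip (Y / 2)) (measurableSet_strip _).nullMeasurableSet
    (fun w _ => by
      have := ((hasDerivAt_Psi e κ c w).hasFDerivAt.restrictScalars ℝ).hasFDerivWithinAt
        (s := strip (Y / 2))
      exact this)
    (injOn_Psi hc hκ)
  rw [← h]
  congr 1
  congr 1
  funext w
  rw [det_smulRight, abs_of_nonneg (by positivity)]

end Half

end Vale.Agent.P273.H852
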