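import Mathlib

/-!
Marks on a neck: ordering and the eliminated gap.
-/

namespace Vale.Agent.P273.H852

open MeasureTheory Finset

section Gap

variable {A : Type*} [AddCommGroup A] {n : ℕ}

/-- The full gap vector: `u` gives the gaps other than `m`, the total is `Y`. -/
def fullGap (m : Fin (n + 1)) (Y : A) (u : Fin n → A) : Fin (n + 1) → A :=
  Fin.insertNth (α := fun _ => A) m (Y - ∑ i, u i) u

@[simp] theorem fullGap_same (m : Fin (n + 1)) (Y : A) (u : Fin n → A) :
    fullGap m Y u m = Y - ∑ i, u i := by
  simp [fullGap]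

@[simp] theorem fullGap_succAbove (m : Fin (n + 1)) (Y : A) (u : Fin n → A) (i : Fin n) :
    fullGap m Y u (m.succAbove i) = u i := by
  simp [fullGap]

theorem sum_fullGap (m : Fin (n + 1)) (Y : A) (u : Fin n → A) :
    ∑ i, fullGap m Y u i = Y := by
  rw [Fin.sum_univ_succAbove _ m]
  simp

/-- Position of the mark number `i` = sum of the gaps up to it. -/
def posOf (v : Fin (n + 1) → A) (i : Fin n) : A := ∑ i' ∈ Iic i.castSucc, v i'

/-- The gaps between given positions (between `0` and `Y`). -/
def gapOf (Y : A) (t : Fin n → A) (i : Fin (n + 1)) : A :=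
  Fin.snoc (α := fun _ => A) t Y i - Fin.cons (α := fun _ => A) 0 t i

theorem posOf_gapOf (Y : A) (t : Fin n → A) : posOf (gapOf Y t) = t := by
  cases n with
  | zero => funext i; exact i.elim0
  | succ n =>
    funext i
    induction i using Fin.induction with
    | zero =>
      have : (Iic (Fin.castSucc (0 : Fin (n + 1)))) = {0} := by
        ext j; simp
      rw [posOf, this, sum_singleton, gapOf]
      have h1 : Fin.snoc (α := fun _ => A) t Y (Fin.castSucc (0 : Fin (n + 1))) = t 0 :=
        Fin.snoc_castSucc (α := fun _ => A) (p := t) (x := Y) 0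
      have h2 : (0 : Fin (n + 2)) = Fin.castSucc (0 : Fin (n + 1)) := rfl
      rw [Fin.cons_zero]
      rw [h2, h1, sub_zero]
    | succ i ih =>
      have hset : (Iic (Fin.castSucc i.succ)) =
          insert (Fin.castSucc i.succ) (Iic (Fin.castSucc i.castSucc)) := by
        ext j
        simp only [mem_Iic, mem_insert, Fin.le_def, Fin.ext_iff, Fin.val_castSucc, Fin.val_succ]
        omega
      have hnot : (Fin.castSucc i.succ) ∉ (Iic (Fin.castSucc i.castSucc)) := by
        simp only [mem_Iic, Fin.le_def, Fin.val_castSucc, Fin.val_succ]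
        omega
      rw [posOf, hset, sum_insert hnot]
      rw [posOf] at ih
      rw [ih, gapOf]
      have h1 : Fin.snoc (α := fun _ => A) t Y (Fin.castSucc i.succ) = t i.succ :=
        Fin.snoc_castSucc (α := fun _ => A) (p := t) (x := Y) _
      have h2 : Fin.cons (α := fun _ => A) 0 t (Fin.castSucc i.succ) = t i.castSucc := by
        rw [← Fin.succ_castSucc]
        exact Fin.cons_succ (α := fun _ => A) _ _ _
      rw [h1, h2]
      abel

theorem sum_gapOf (Y : A) (t : Fin n → A) : ∑ i, gapOf Y t i = Y := by
  simp only [gapOf, sum_sub_distrib]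
  rw [Fin.sum_univ_castSucc, Fin.sum_univ_succ (f := fun i => Fin.cons (α := fun _ => A) 0 t i)]
  simp

theorem gapOf_posOf (Y : A) (v : Fin (n + 1) → A) (h : ∑ i, v i = Y) :
    gapOf Y (posOf v) = v := by
  funext i
  rw [gapOf]
  rcases Fin.eq_castSucc_or_eq_last i with ⟨j, rfl⟩ | rfl
  · rw [Fin.snoc_castSucc (α := fun _ => A)]
    rcases Fin.eq_zero_or_eq_succ j.castSucc with h0 | ⟨k, hk⟩
    · rw [h0, Fin.cons_zero]
      have : (Iic j.castSucc) = {j.castSucc} := by
        rw [h0]; ext j; simp
      rw [posOf, this, sum_singleton, h0, sub_zero]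
    · rw [hk, Fin.cons_succ (α := fun _ => A)]
      have hset : (Iic (Fin.castSucc j)) =
          insert (Fin.castSucc j) (Iic (Fin.castSucc k)) := by
        ext l
        have := congrArg Fin.val hk
        simp only [Fin.val_castSucc, Fin.val_succ] at this
        simp only [mem_Iic, mem_insert, Fin.le_def, Fin.ext_iff, Fin.val_castSucc]
        omega
      have hnot : (Fin.castSucc j) ∉ (Iic (Fin.castSucc k)) := by
        have := congrArg Fin.val hk
        simp only [Fin.val_castSucc, Fin.val_succ] at this
        simp only [mem_Iic, Fin.le_def, Fin.val_castSucc]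
        omega
      rw [posOf, posOf, hset, sum_insert hnot, ← hk]
      abel
  · rw [Fin.snoc_last (α := fun _ => A)]
    rcases Fin.eq_zero_or_eq_succ (Fin.last n) with h0 | ⟨k, hk⟩
    · have hn : n = 0 := by
        have := congrArg Fin.val h0
        simpa using this
      subst hn
      rw [← h, Fin.sum_univ_succ]
      simp
    · have hset : (Finset.univ : Finset (Fin (n + 1))) =
          insert (Fin.last n) (Iic (Fin.castSucc k)) := by
        ext l
        have := congrArg Fin.val hk
        simp only [Fin.val_last, Fin.val_succ] at this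
        have := l.2
        simp only [mem_univ, mem_Iic, mem_insert, Fin.le_def, Fin.ext_iff, Fin.val_castSucc,
          Fin.val_last, true_iff]
        omega
      have hnot : (Fin.last n) ∉ (Iic (Fin.castSucc k)) := by
        have := congrArg Fin.val hk
        simp only [Fin.val_last, Fin.val_succ] at this
        simp only [mem_Iic, Fin.le_def, Fin.val_castSucc, Fin.val_last]
        omega
      have h3 : Fin.cons (α := fun _ => A) 0 (posOf v) (Fin.last n) = posOf v k := by
        rw [hk]; exact Fin.cons_succ (α := fun _ => A) _ _ _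
      rw [h3, posOf, ← h, hset, sum_insert hnot]
      abel

/-- Free gaps `u` to positions, as an equivalence. -/
def gapEquiv (m : Fin (n + 1)) (Y : A) : (Fin n → A) ≃ (Fin n → A) where
  toFun u := posOf (fullGap m Y u)
  invFun t i := gapOf Y t (m.succAbove i)
  left_inv u := by
    funext i
    show gapOf Y (posOf (fullGap m Y u)) (m.succAbove i) = u i
    rw [gapOf_posOf Y _ (sum_fullGap m Y u), fullGap_succAbove]
  right_inv t := by
    have : fullGap m Y (fun i => gapOf Y t (m.succAbove i)) = gapOf Y t := by
      funext i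
      rcases Fin.eq_self_or_eq_succAbove m i with rfl | ⟨j, rfl⟩
      · rw [fullGap_same, sub_eq_iff_eq_add, ← Fin.sum_univ_succAbove, sum_gapOf]
      · rw [fullGap_succAbove]
    show posOf (fullGap m Y (fun i => gapOf Y t (m.succAbove i))) = t
    rw [this, posOf_gapOf]

theorem fullGap_add (m : Fin (n + 1)) (Y Y' : A) (u u' : Fin n → A) :
    fullGap m (Y + Y') (u + u') = fullGap m Y u + fullGap m Y' u' := by
  funext i
  rcases Fin.eq_self_or_eq_succAbove m i with rfl | ⟨j, rfl⟩
  · simp only [fullGap_same, Pi.add_apply, sum_add_distrib]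
    abel
  · simp

theorem posOf_add (v v' : Fin (n + 1) → A) : posOf (v + v') = posOf v + posOf v' := by
  funext i
  simp [posOf, sum_add_distrib]

theorem gapEquiv_eq (m : Fin (n + 1)) (Y : A) (u : Fin n → A) :
    gapEquiv m Y u = gapEquiv m 0 u + gapEquiv m Y 0 := by
  show posOf (fullGap m Y u) = posOf (fullGap m 0 u) + posOf (fullGap m Y 0)
  rw [← posOf_add, ← fullGap_add, zero_add, add_zero]

theorem map_fullGap {A' : Type*} [AddCommGroup A'] (f : A →+ A') (m : Fin (n + 1)) (Y : A)
    (u : Fin n → A) (i : Fin (n + 1)) :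
    fullGap m (f Y) (fun i => f (u i)) i = f (fullGap m Y u i) := by
  rcases Fin.eq_self_or_eq_succAbove m i with rfl | ⟨j, rfl⟩
  · simp only [fullGap_same, map_sub, map_sum]
  · simp

theorem map_gapEquiv {A' : Type*} [AddCommGroup A'] (f : A →+ A') (m : Fin (n + 1)) (Y : A)
    (u : Fin n → A) (i : Fin n) :
    gapEquiv m (f Y) (fun i => f (u i)) i = f (gapEquiv m Y u i) := by
  show posOf (fullGap m (f Y) (fun i => f (u i))) i = f (posOf (fullGap m Y u) i)
  simp only [posOf, map_fullGap, map_sum]

end Gap

section Lin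

variable {n : ℕ}

/-- The linear part, over any commutative ring. -/
def gapLin (R : Type*) [CommRing R] (m : Fin (n + 1)) : (Fin n → R) ≃ₗ[R] (Fin n → R) where
  __ := gapEquiv m (0 : R)
  map_add' u u' := by
    show posOf (fullGap m 0 (u + u')) = posOf (fullGap m 0 u) + posOf (fullGap m 0 u')
    rw [← posOf_add, ← fullGap_add, zero_add]
  map_smul' c u := by
    funext i
    show gapEquiv m (0 : R) (c • u) i = c • gapEquiv m (0 : R) u i
    have := map_gapEquiv (AddMonoidHom.mulLeft c) m (0 : R) u i
    simp only [AddMonoidHom.coe_mulLeft, mul_zero] at this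
    exact this

theorem gapLin_apply (R : Type*) [CommRing R] (m : Fin (n + 1)) (u : Fin n → R) :
    gapLin R m u = gapEquiv m 0 u := rfl

theorem toMatrix_gapLin (m : Fin (n + 1)) :
    (LinearMap.toMatrix' (gapLin ℝ m).toLinearMap) =
      (LinearMap.toMatrix' (gapLin ℤ m).toLinearMap).map (Int.castRingHom ℝ) := by
  ext i j
  rw [LinearMap.toMatrix'_apply, Matrix.map_apply, LinearMap.toMatrix'_apply]
  show gapEquiv m (0 : ℝ) (Pi.single j 1) i =
    (Int.castRingHom ℝ) (gapEquiv m (0 : ℤ) (Pi.single j 1) i)
  have := map_gapEquiv (Int.castRingHom ℝ).toAddMonoidHom m (0 : ℤ) (Pi.single j 1) i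
  simp only [RingHom.toAddMonoidHom_eq_coe, AddMonoidHom.coe_coe, map_zero] at this
  rw [← this]
  refine congrFun (congrArg (gapEquiv m 0) ?_) i
  funext k
  by_cases h : k = j
  · subst h; simp
  · simp [h]

theorem abs_det_gapLin (m : Fin (n + 1)) :
    |LinearMap.det (gapLin ℝ m).toLinearMap| = 1 := by
  rw [← LinearMap.det_toMatrix', toMatrix_gapLin, ← RingHom.mapMatrix_apply, ← RingHom.map_det,
    LinearMap.det_toMatrix']
  have h := (LinearEquiv.isUnit_det' (gapLin ℤ m))
  rcases Int.isUnit_iff.1 h with h | h <;> rw [h] <;> simp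

theorem measurePreserving_gapLin (m : Fin (n + 1)) :
    MeasurePreserving (gapLin ℝ m) (volume : Measure (Fin n → ℝ)) volume := by
  have hdet : LinearMap.det (gapLin ℝ m).toLinearMap ≠ 0 := by
    intro h
    have := abs_det_gapLin m
    rw [h] at this
    simp at this
  refine ⟨(LinearMap.continuous_of_finiteDimensional (gapLin ℝ m).toLinearMap).measurable, ?_⟩
  have := Measure.map_linearMap_addHaar_pi_eq_smul_addHaar hdet
    (volume : Measure (Fin n → ℝ))
  rw [abs_inv, abs_det_gapLin] at this
  simpa using this

theorem measurePreserving_gapEquiv (m : Fin (n + 1)) (Y : ℝ) :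
    MeasurePreserving (gapEquiv m Y) (volume : Measure (Fin n → ℝ)) volume := by
  have h : (gapEquiv m Y : (Fin n → ℝ) → (Fin n → ℝ)) =
      (fun x => x + gapEquiv m Y 0) ∘ (gapLin ℝ m) := by
    funext u
    rw [gapEquiv_eq]
    rfl
  rw [h]
  exact (measurePreserving_add_right volume _).comp (measurePreserving_gapLin m)

/-- As a measurable equivalence. -/
noncomputable def gapME (m : Fin (n + 1)) (Y : ℝ) : (Fin n → ℝ) ≃ᵐ (Fin n → ℝ) where
  toEquiv := gapEquiv m Y
  measurable_toFun := (measurePreserving_gapEquiv m Y).measurable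
  measurable_invFun := by
    show Measurable (gapEquiv m Y).symm
    refine measurable_pi_lambda _ fun i => ?_
    show Measurable fun t : Fin n → ℝ => gapOf Y t (m.succAbove i)
    simp only [gapOf]
    refine Measurable.sub ?_ ?_
    · rcases Fin.eq_castSucc_or_eq_last (m.succAbove i) with ⟨j, hj⟩ | hj
      · rw [hj]
        simp only [Fin.snoc_castSucc (α := fun _ => ℝ)]
        exact measurable_pi_apply j
      · rw [hj]
        simp only [Fin.snoc_last (α := fun _ => ℝ)]
        exact measurable_const
    · rcases Fin.eq_zero_or_eq_succ (m.succAbove i) with hj | ⟨j, hj⟩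
      · rw [hj]
        simp only [Fin.cons_zero]
        exact measurable_const
      · rw [hj]
        simp only [Fin.cons_succ (α := fun _ => ℝ)]
        exact measurable_pi_apply j

end Lin

section Circ

variable {n : ℕ}

instance factTwoPi : Fact (0 < 2 * Real.pi) := ⟨Real.two_pi_pos⟩

theorem measurePreserving_gapEquiv_circle (m : Fin (n + 1)) (a : AddCircle (2 * Real.pi)) :
    MeasurePreserving (gapEquiv m a)
      (volume : Measure (Fin n → AddCircle (2 * Real.pi))) volume := by
  let f : (Fin n → AddCircle (2 * Real.pi)) →+ (Fin n → AddCircle (2 * Real.pi)) :=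
    { toFun := gapEquiv m 0
      map_zero' := by
        have := gapEquiv_eq m (0 : AddCircle (2 * Real.pi)) 0
        simpa using this
      map_add' := fun u u' => by
        show posOf (fullGap m 0 (u + u')) = posOf (fullGap m 0 u) + posOf (fullGap m 0 u')
        rw [← posOf_add, ← fullGap_add, zero_add] }
  have hf : (f : (Fin n → AddCircle (2 * Real.pi)) → (Fin n → AddCircle (2 * Real.pi))) =
      gapEquiv m 0 := rfl
  have hcont : Continuous f := by
    rw [hf]
    refine continuous_pi fun i => ?_
    show Continuous fun u : Fin n → AddCircle (2 * Real.pi) => posOf (fullGap m 0 u) i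
    simp only [posOf]
    refine continuous_finsetSum _ fun i' _ => ?_
    rcases Fin.eq_self_or_eq_succAbove m i' with rfl | ⟨j, rfl⟩
    · simp only [fullGap_same]
      fun_prop
    · simp only [fullGap_succAbove]
      fun_prop
  have hsurj : Function.Surjective f := by
    rw [hf]; exact (gapEquiv m 0).surjective
  have hmp : MeasurePreserving f
      (volume : Measure (Fin n → AddCircle (2 * Real.pi))) volume :=
    f.measurePreserving hcont hsurj rfl
  have h : (gapEquiv m a : (Fin n → AddCircle (2 * Real.pi)) → _) =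
      (fun x => x + gapEquiv m a 0) ∘ f := by
    funext u
    rw [gapEquiv_eq]
    rfl
  rw [h]
  exact (measurePreserving_add_right volume _).comp hmp

/-- The box of angles. -/
def angBox (J : Type*) : Set (J → ℝ) := Set.univ.pi fun _ => Set.Ioc (-Real.pi) Real.pi

theorem measurePreserving_angle (J : Type*) [Fintype J] :
    MeasurePreserving (fun (φ : J → ℝ) (j : J) => ((φ j : ℝ) : AddCircle (2 * Real.pi)))
      (volume.restrict (angBox J)) volume := by
  have h := AddCircle.measurePreserving_mk (2 * Real.pi) (-Real.pi)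
  have e : -Real.pi + 2 * Real.pi = Real.pi := by ring
  rw [e] at h
  have h2 := measurePreserving_pi (fun _ : J => volume.restrict (Set.Ioc (-Real.pi) Real.pi))
    (fun _ : J => (volume : Measure (AddCircle (2 * Real.pi)))) (fun _ => h)
  rw [angBox, volume_pi, Measure.restrict_pi_pi]
  exact h2

theorem map_angle_gap (m : Fin (n + 1)) (α : ℝ) :
    Measure.map (fun (θ : Fin n → ℝ) (i : Fin n) =>
        Complex.exp (((gapEquiv m α θ i : ℝ) : ℂ) * Complex.I)) (volume.restrict (angBox (Fin n))) =
      Measure.map (fun (φ : Fin n → ℝ) (i : Fin n) => Complex.exp (((φ i : ℝ) : ℂ) * Complex.I))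
        (volume.restrict (angBox (Fin n))) := by
  set T : ℝ := 2 * Real.pi with hT
  let c : AddCircle T → ℂ := fun x => (AddCircle.toCircle x : ℂ)
  have hc : Measurable c :=
    (Continuous.comp (continuous_subtype_val) AddCircle.continuous_toCircle).measurable
  have hcx : ∀ x : ℝ, c (x : AddCircle T) = Complex.exp ((x : ℂ) * Complex.I) := by
    intro x
    show ((AddCircle.toCircle (x : AddCircle T) : Circle) : ℂ) = _
    rw [AddCircle.toCircle_apply_mk, Circle.coe_exp, hT, div_self Real.two_pi_pos.ne', one_mul]
  let C : (Fin n → AddCircle T) → (Fin n → ℂ) := fun x i => c (x i)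
  have hC : Measurable C := measurable_pi_lambda _ fun i => hc.comp (measurable_pi_apply i)
  have hq := measurePreserving_angle (Fin n)
  have e1 : (fun (φ : Fin n → ℝ) (i : Fin n) => Complex.exp (((φ i : ℝ) : ℂ) * Complex.I)) =
      C ∘ (fun (φ : Fin n → ℝ) (j : Fin n) => ((φ j : ℝ) : AddCircle T)) := by
    funext φ i
    exact (hcx _).symm
  have e2 : (fun (θ : Fin n → ℝ) (i : Fin n) =>
      Complex.exp (((gapEquiv m α θ i : ℝ) : ℂ) * Complex.I)) =
      (C ∘ (gapEquiv m ((α : ℝ) : AddCircle T))) ∘
        (fun (φ : Fin n → ℝ) (j : Fin n) => ((φ j : ℝ) : AddCircle T)) := by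
    funext θ i
    have := map_gapEquiv (QuotientAddGroup.mk' (AddSubgroup.zmultiples T)) m α θ i
    show _ = c (gapEquiv m ((α : ℝ) : AddCircle T)
      (fun j => ((θ j : ℝ) : AddCircle T)) i)
    rw [← hcx]
    exact congrArg c this.symm
  have hg := measurePreserving_gapEquiv_circle m ((α : ℝ) : AddCircle T)
  rw [e1, e2, ← Measure.map_map (hC.comp hg.measurable) hq.measurable, hq.map_eq,
    ← Measure.map_map hC hg.measurable, hg.map_eq, ← Measure.map_map hC hq.measurable, hq.map_eq]

end Circ

end Vale.Agent.P273.H852
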