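import Vale.Agent.P273.H852.Order

/-!
Decomposition of a cube into ordered regions, with the largest gap singled out.
-/

namespace Vale.Agent.P273.H852

open MeasureTheory Finset

set_option linter.unusedSectionVars false

variable {J : Type*} [Fintype J]

/-- Domain of the free gaps. -/
def gdom (n : ℕ) (Y : ℝ) : Set (Fin n → ℝ) := {u | ∀ i, 0 < u i ∧ u i < Y - ∑ i', u i'}

/-- The region in the space of positions. -/
def ordReg {n : ℕ} (Y : ℝ) (π : Fin n ≃ J) (m : Fin (n + 1)) : Set (J → ℝ) :=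
  {t | ∀ i : Fin n, 0 < gapOf Y (fun i => t (π i)) (m.succAbove i) ∧
    gapOf Y (fun i => t (π i)) (m.succAbove i) < gapOf Y (fun i => t (π i)) m}

theorem gapOf_gapEquiv {n : ℕ} (m : Fin (n + 1)) (Y : ℝ) (u : Fin n → ℝ) :
    gapOf Y (gapEquiv m Y u) = fullGap m Y u :=
  gapOf_posOf Y _ (sum_fullGap m Y u)

/-- Free gaps to positions of the labelled marks. -/
noncomputable def ordME {n : ℕ} (Y : ℝ) (π : Fin n ≃ J) (m : Fin (n + 1)) :
    (Fin n → ℝ) ≃ᵐ (J → ℝ) :=
  (gapME m Y).trans (MeasurableEquiv.piCongrLeft (fun _ => ℝ) π)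

theorem ordME_apply {n : ℕ} (Y : ℝ) (π : Fin n ≃ J) (m : Fin (n + 1)) (u : Fin n → ℝ) (j : J) :
    ordME Y π m u j = gapEquiv m Y u (π.symm j) := by
  obtain ⟨i, rfl⟩ := π.surjective j
  rw [Equiv.symm_apply_apply]
  exact Equiv.piCongrLeft_apply_apply (fun _ => ℝ) π (gapEquiv m Y u) i

theorem measurePreserving_ordME {n : ℕ} (Y : ℝ) (π : Fin n ≃ J) (m : Fin (n + 1)) :
    MeasurePreserving (ordME Y π m) (volume : Measure (Fin n → ℝ)) (volume : Measure (J → ℝ)) :=
  (volume_measurePreserving_piCongrLeft (fun _ => ℝ) π).comp (measurePreserving_gapEquiv m Y)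

theorem ordME_preimage {n : ℕ} (Y : ℝ) (π : Fin n ≃ J) (m : Fin (n + 1)) :
    ordME Y π m ⁻¹' (ordReg Y π m) = gdom n Y := by
  ext u
  have : (fun i => ordME Y π m u (π i)) = gapEquiv m Y u := by
    funext i
    rw [ordME_apply, Equiv.symm_apply_apply]
  simp only [Set.mem_preimage, ordReg, Set.mem_ofPred_eq, this, gapOf_gapEquiv, gdom,
    fullGap_succAbove, fullGap_same]

theorem map_ordME {n : ℕ} (Y : ℝ) (π : Fin n ≃ J) (m : Fin (n + 1)) :
    (volume.restrict (gdom n Y)).map (ordME Y π m) = volume.restrict (ordReg Y π m) := by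
  rw [← ordME_preimage Y π m, ← MeasurableEquiv.restrict_map,
    (measurePreserving_ordME Y π m).map_eq]

theorem measurableSet_gdom (n : ℕ) (Y : ℝ) : MeasurableSet (gdom n Y) := by
  have : gdom n Y = ⋂ i, ({u | 0 < u i} ∩ {u | u i < Y - ∑ i', u i'}) := by
    ext u; simp [gdom]
  rw [this]
  refine MeasurableSet.iInter fun i => ?_
  refine (measurableSet_lt measurable_const (measurable_pi_apply i)).inter ?_
  refine measurableSet_lt (measurable_pi_apply i) ?_
  fun_prop

theorem measurableSet_ordReg {n : ℕ} (Y : ℝ) (π : Fin n ≃ J) (m : Fin (n + 1)) :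
    MeasurableSet (ordReg Y π m) := by
  rw [← MeasurableEquiv.measurableSet_preimage (ordME Y π m), ordME_preimage]
  exact measurableSet_gdom n Y

theorem gapOf_pos {n : ℕ} {Y : ℝ} (hY : 0 < Y) {π : Fin n ≃ J} {m : Fin (n + 1)} {t : J → ℝ}
    (ht : t ∈ ordReg Y π m) (i : Fin (n + 1)) : 0 < gapOf Y (fun i => t (π i)) i := by
  rcases Fin.eq_self_or_eq_succAbove m i with rfl | ⟨j, rfl⟩
  · rcases Nat.eq_zero_or_pos n with hn | hn
    · subst hn
      have := sum_gapOf Y (fun i => t (π i))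
      rw [Fin.sum_univ_succ] at this
      have hi : i = 0 := Fin.ext (by have := i.2; simp only [Fin.val_zero]; omega)
      rw [hi]
      simp only [Finset.univ_eq_empty, sum_empty, add_zero] at this
      rw [this]; exact hY
    · exact (ht ⟨0, hn⟩).1.trans (ht ⟨0, hn⟩).2
  · exact (ht j).1

theorem pos_eq_sum {n : ℕ} (Y : ℝ) (t : Fin n → ℝ) (i : Fin n) :
    t i = ∑ i' ∈ Iic i.castSucc, gapOf Y t i' :=
  (congrFun (posOf_gapOf Y t) i).symm

theorem strictMono_of_gap {n : ℕ} {Y : ℝ} {t : Fin n → ℝ} (h : ∀ i, 0 < gapOf Y t i) :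
    StrictMono t := by
  intro i j hij
  rw [pos_eq_sum Y t i, pos_eq_sum Y t j]
  refine Finset.sum_lt_sum_of_subset (i := j.castSucc) ?_ ?_ ?_ (h _) ?_
  · intro x hx
    rw [mem_Iic] at hx ⊢
    refine le_trans hx ?_
    rw [Fin.le_def]
    exact Fin.le_def.1 hij.le
  · exact mem_Iic.2 le_rfl
  · rw [mem_Iic, not_le]
    rw [Fin.lt_def]
    exact Fin.lt_def.1 hij
  · intro x _ _
    exact (h x).le

theorem mem_Ioo_of_gap {n : ℕ} {Y : ℝ} {t : Fin n → ℝ} (h : ∀ i, 0 < gapOf Y t i) (i : Fin n) :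
    t i ∈ Set.Ioo 0 Y := by
  rw [pos_eq_sum Y t i]
  refine ⟨Finset.sum_pos (fun x _ => h x) ⟨i.castSucc, by simp⟩, ?_⟩
  calc ∑ i' ∈ Iic i.castSucc, gapOf Y t i' < ∑ i', gapOf Y t i' := by
        refine Finset.sum_lt_sum_of_subset (i := Fin.last n) (subset_univ _) (mem_univ _) ?_ (h _)
          (fun x _ _ => (h x).le)
        simp [Fin.le_def]
    _ = Y := sum_gapOf Y t

theorem gap_pos_of {n : ℕ} {Y : ℝ} (hY : 0 < Y) {t : Fin n → ℝ} (h : StrictMono t)
    (h2 : ∀ i, t i ∈ Set.Ioo 0 Y) (i : Fin (n + 1)) : 0 < gapOf Y t i := by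
  rw [gapOf]
  rcases Fin.eq_castSucc_or_eq_last i with ⟨j, rfl⟩ | rfl
  · rw [Fin.snoc_castSucc (α := fun _ => ℝ)]
    rcases Fin.eq_zero_or_eq_succ j.castSucc with h0 | ⟨k, hk⟩
    · rw [h0, Fin.cons_zero, sub_zero]
      exact (h2 j).1
    · rw [hk, Fin.cons_succ (α := fun _ => ℝ), sub_pos]
      apply h
      have := congrArg Fin.val hk
      simp only [Fin.val_castSucc, Fin.val_succ] at this
      rw [Fin.lt_def]; omega
  · rw [Fin.snoc_last (α := fun _ => ℝ)]
    rcases Fin.eq_zero_or_eq_succ (Fin.last n) with h0 | ⟨k, hk⟩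
    · rw [h0, Fin.cons_zero, sub_zero]
      exact hY
    · rw [hk, Fin.cons_succ (α := fun _ => ℝ), sub_pos]
      exact (h2 k).2

/-- Affine hyperplanes are null. -/
theorem null_hyper {I : Type*} [Fintype I] (l : (I → ℝ) →ₗ[ℝ] ℝ) (v : I → ℝ) (hv : l v ≠ 0)
    (c : ℝ) : volume {t : I → ℝ | l t = c} = 0 := by
  rcases Set.eq_empty_or_nonempty {t : I → ℝ | l t = c} with h | ⟨t0, ht0⟩
  · rw [h, measure_empty]
  · have hs : (LinearMap.ker l : Submodule ℝ (I → ℝ)) ≠ ⊤ := by
      intro h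
      have : v ∈ (LinearMap.ker l : Submodule ℝ (I → ℝ)) := by rw [h]; trivial
      exact hv this
    have h0 := Measure.addHaar_submodule (volume : Measure (I → ℝ)) _ hs
    have h1 : {t : I → ℝ | l t = c} = (fun x => x + (-t0)) ⁻¹' (LinearMap.ker l : Set (I → ℝ)) := by
      ext t
      simp only [Set.mem_ofPred_eq, Set.mem_preimage, SetLike.mem_coe, LinearMap.mem_ker, map_add,
        map_neg]
      rw [show l t0 = c from ht0]
      constructor
      · intro h; linarith
      · intro h; linarith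
    rw [h1, measure_preimage_add_right]
    exact h0

theorem null_eq [DecidableEq J] {i j : J} (h : i ≠ j) :
    volume {t : J → ℝ | t i = t j} = 0 := by
  have := null_hyper (LinearMap.proj (R := ℝ) (φ := fun _ : J => ℝ) i - LinearMap.proj j)
    (Pi.single i 1) (by simp [h.symm]) 0
  convert this using 3
  ext t
  simp [sub_eq_zero]

theorem null_gap {n : ℕ} (Y : ℝ) (π : Fin n ≃ J) {a b : Fin (n + 1)} (h : a ≠ b) :
    volume {t : J → ℝ | gapOf Y (fun i => t (π i)) a = gapOf Y (fun i => t (π i)) b} = 0 := by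
  obtain ⟨b', rfl⟩ : ∃ b', a.succAbove b' = b := Fin.exists_succAbove_eq h.symm
  have hp := (measurePreserving_ordME Y π a).measure_preimage_equiv
    {t : J → ℝ | gapOf Y (fun i => t (π i)) a = gapOf Y (fun i => t (π i)) (a.succAbove b')}
  rw [← hp]
  have : (ordME Y π a) ⁻¹'
      {t : J → ℝ | gapOf Y (fun i => t (π i)) a = gapOf Y (fun i => t (π i)) (a.succAbove b')} =
      {u | (LinearMap.proj (R := ℝ) (φ := fun _ : Fin n => ℝ) b' +
        ∑ i', LinearMap.proj (R := ℝ) (φ := fun _ : Fin n => ℝ) i') u = Y} := by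
    ext u
    have : (fun i => ordME Y π a u (π i)) = gapEquiv a Y u := by
      funext i
      rw [ordME_apply, Equiv.symm_apply_apply]
    simp only [Set.mem_preimage, Set.mem_ofPred_eq, this, gapOf_gapEquiv, fullGap_succAbove,
      fullGap_same, LinearMap.add_apply, LinearMap.coe_proj, Function.eval, LinearMap.sum_apply]
    constructor
    · intro h; linarith
    · intro h; linarith
  rw [this]
  refine null_hyper _ (Pi.single b' 1) ?_ Y
  simp only [LinearMap.add_apply, LinearMap.coe_proj, Function.eval, LinearMap.sum_apply,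
    Pi.single_eq_same]
  simp only [Pi.single_apply, Finset.sum_ite_eq', mem_univ, if_true]
  norm_num

section Main

variable [DecidableEq J]

theorem strictMono_unique {n : ℕ} {π π' : Fin n ≃ J} {t : J → ℝ}
    (h : StrictMono fun i => t (π i)) (h' : StrictMono fun i => t (π' i)) : π = π' := by
  have hs : StrictMono (π.trans π'.symm) := by
    intro i j hij
    by_contra hc
    rw [not_lt] at hc
    have h1 : t (π i) < t (π j) := h hij
    have h2 := h'.monotone hc
    simp only [Equiv.trans_apply, Equiv.apply_symm_apply] at h2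
    exact absurd h1 (not_lt.2 h2)
  have hid : ∀ i, (π.trans π'.symm) i = i := by
    intro i
    have := Subsingleton.elim
      (hs.orderIsoOfSurjective (π.trans π'.symm) (π.trans π'.symm).surjective) (OrderIso.refl _)
    exact congrArg (fun f : Fin n ≃o Fin n => f i) this
  ext i
  have := hid i
  rw [Equiv.trans_apply, Equiv.symm_apply_eq] at this
  exact this

theorem ordReg_disjoint {n : ℕ} {Y : ℝ} (hY : 0 < Y) {p q : (Fin n ≃ J) × Fin (n + 1)}
    (h : p ≠ q) : Disjoint (ordReg Y p.1 p.2) (ordReg Y q.1 q.2) := by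
  rw [Set.disjoint_left]
  intro t ht ht'
  have h1 : p.1 = q.1 :=
    strictMono_unique (strictMono_of_gap fun i => gapOf_pos hY ht i)
      (strictMono_of_gap fun i => gapOf_pos hY ht' i)
  apply h
  refine Prod.ext h1 ?_
  by_contra hne
  rw [h1] at ht
  obtain ⟨b, hb⟩ := Fin.exists_succAbove_eq (Ne.symm hne)
  obtain ⟨b', hb'⟩ := Fin.exists_succAbove_eq hne
  have e1 := (ht b).2
  have e2 := (ht' b').2
  rw [hb] at e1
  rw [hb'] at e2
  exact lt_asymm e1 e2

/-- The cube of positions. -/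
def cube (J : Type*) (Y : ℝ) : Set (J → ℝ) := Set.univ.pi fun _ => Set.Ioo 0 Y

theorem ordReg_subset {n : ℕ} {Y : ℝ} (hY : 0 < Y) (π : Fin n ≃ J) (m : Fin (n + 1)) :
    ordReg Y π m ⊆ cube J Y := by
  intro t ht j _
  obtain ⟨i, rfl⟩ := π.surjective j
  exact mem_Ioo_of_gap (fun i => gapOf_pos hY ht i) i

theorem cover {Y : ℝ} (hY : 0 < Y) {t : J → ℝ} (ht : t ∈ cube J Y)
    (h1 : Function.Injective t)
    (h2 : ∀ (π : Fin (Fintype.card J) ≃ J) (a b : Fin (Fintype.card J + 1)), a ≠ b →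
      gapOf Y (fun i => t (π i)) a ≠ gapOf Y (fun i => t (π i)) b) :
    ∃ p : (Fin (Fintype.card J) ≃ J) × Fin (Fintype.card J + 1), t ∈ ordReg Y p.1 p.2 := by
  let e0 : Fin (Fintype.card J) ≃ J := (Fintype.equivFin J).symm
  let σ := Tuple.sort (t ∘ e0)
  let π : Fin (Fintype.card J) ≃ J := σ.trans e0
  have hmono : StrictMono fun i => t (π i) := by
    have hm : Monotone ((t ∘ e0) ∘ σ) := Tuple.monotone_sort (t ∘ e0)
    have hm' : Monotone fun i => t (π i) := hm
    exact hm'.strictMono_of_injective (h1.comp π.injective)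
  have hpos : ∀ i, 0 < gapOf Y (fun i => t (π i)) i :=
    gap_pos_of hY hmono fun i => ht (π i) (Set.mem_univ _)
  obtain ⟨m, hm⟩ := Finite.exists_max (gapOf Y (fun i => t (π i)))
  refine ⟨(π, m), fun i => ⟨hpos _, ?_⟩⟩
  exact lt_of_le_of_ne (hm _) (h2 π _ _ (Fin.succAbove_ne m i))

theorem iUnion_ordReg {Y : ℝ} (hY : 0 < Y) :
    (⋃ p : (Fin (Fintype.card J) ≃ J) × Fin (Fintype.card J + 1), ordReg Y p.1 p.2) =ᵐ[volume]
      cube J Y := by
  have hn1 : ∀ᵐ t : J → ℝ, Function.Injective t := by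
    have : ∀ᵐ t : J → ℝ, ∀ i j : J, i ≠ j → t i ≠ t j := by
      rw [ae_all_iff]; intro i
      rw [ae_all_iff]; intro j
      by_cases h : i = j
      · exact Filter.Eventually.of_forall fun t hne => absurd h hne
      · have := null_eq h
        rw [measure_eq_zero_iff_ae_notMem] at this
        filter_upwards [this] with t ht _ using ht
    filter_upwards [this] with t ht i j hij
    by_contra hne
    exact ht i j hne hij
  have hn2 : ∀ᵐ t : J → ℝ, ∀ (π : Fin (Fintype.card J) ≃ J) (a b : Fin (Fintype.card J + 1)),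
      a ≠ b → gapOf Y (fun i => t (π i)) a ≠ gapOf Y (fun i => t (π i)) b := by
    rw [ae_all_iff]; intro π
    rw [ae_all_iff]; intro a
    rw [ae_all_iff]; intro b
    by_cases h : a = b
    · exact Filter.Eventually.of_forall fun t hne => absurd h hne
    · have := null_gap Y π h
      rw [measure_eq_zero_iff_ae_notMem] at this
      filter_upwards [this] with t ht _ using ht
  refine Filter.eventuallyEq_set.2 ?_
  filter_upwards [hn1, hn2] with t h1 h2
  constructor
  · intro h
    obtain ⟨p, hp⟩ := Set.mem_iUnion.1 h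
    exact ordReg_subset hY p.1 p.2 hp
  · intro h
    exact Set.mem_iUnion.2 (cover hY h h1 h2)

/-- **Decomposition of the cube**. -/
theorem cube_measure_eq {Y : ℝ} (hY : 0 < Y) :
    (volume : Measure (J → ℝ)).restrict (cube J Y) =
      ∑ p : (Fin (Fintype.card J) ≃ J) × Fin (Fintype.card J + 1),
        (volume.restrict (gdom (Fintype.card J) Y)).map
          (fun (u : Fin (Fintype.card J) → ℝ) (j : J) => gapEquiv p.2 Y u (p.1.symm j)) := by
  rw [← Measure.restrict_congr_set (iUnion_ordReg hY), Measure.restrict_iUnion, Measure.sum_fintype]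
  · refine Finset.sum_congr rfl fun p _ => ?_
    rw [← map_ordME Y p.1 p.2]
    congr 1
    funext u j
    exact ordME_apply Y p.1 p.2 u j
  · intro p q hpq
    exact ordReg_disjoint hY hpq
  · exact fun p => measurableSet_ordReg Y p.1 p.2

end Main

end Vale.Agent.P273.H852
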