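import Vale.Agent.P273.H852.Order2

/-!
Logarithmic polar coordinates for several marks on one neck, ordered, with gap coordinates.
-/

namespace Vale.Agent.P273.H852

open MeasureTheory Finset

set_option linter.unusedSectionVars false

variable {J : Type*} [Fintype J] [DecidableEq J]

/-- The measure `du dφ` on the annulus `e ^ (-Y) < |U| < 1`. -/
noncomputable def annMeas (Y : ℝ) : Measure ℂ :=
  ((volume.restrict (Set.Ioo 0 Y)).prod (volume.restrict (Set.Ioc (-Real.pi) Real.pi))).map
    (fun p : ℝ × ℝ => Complex.exp (-(p.1 : ℂ) + (p.2 : ℂ) * Complex.I))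

/-- exponentials of a vector of angles -/
noncomputable def expI (J : Type*) (φ : J → ℝ) (j : J) : ℂ := Complex.exp ((φ j : ℂ) * Complex.I)

theorem measurable_expI (J : Type*) : Measurable (expI J) :=
  measurable_pi_lambda _ fun j => by
    unfold expI
    have : Measurable fun φ : J → ℝ => φ j := measurable_pi_apply j
    fun_prop

theorem measurable_gapEquiv {n : ℕ} (m : Fin (n + 1)) (Y : ℝ) :
    Measurable (gapEquiv m Y : (Fin n → ℝ) → (Fin n → ℝ)) :=
  (measurePreserving_gapEquiv m Y).measurable

theorem map_angle_lab {n : ℕ} (π : Fin n ≃ J) (m : Fin (n + 1)) (a : ℝ) :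
    (volume.restrict (angBox J)).map (expI J) =
      (volume.restrict (angBox (Fin n))).map
        (fun (θ : Fin n → ℝ) (j : J) => Complex.exp ((gapEquiv m a θ (π.symm j) : ℂ) * Complex.I)) := by
  have h := map_angle_gap m a
  -- relabel
  let ρ : (Fin n → ℂ) → (J → ℂ) := fun x j => x (π.symm j)
  have hρ : Measurable ρ := measurable_pi_lambda _ fun j => measurable_pi_apply _
  have h2 := congrArg (Measure.map ρ) h
  have hE : Measurable (fun (φ : Fin n → ℝ) (i : Fin n) => Complex.exp (((φ i : ℝ) : ℂ) * Complex.I)) :=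
    measurable_expI (Fin n)
  have hE2 : Measurable (fun (φ : Fin n → ℝ) (i : Fin n) =>
      Complex.exp (((gapEquiv m a φ i : ℝ) : ℂ) * Complex.I)) :=
    hE.comp (measurable_gapEquiv m a)
  rw [Measure.map_map hρ hE2, Measure.map_map hρ hE] at h2
  have h3 : (ρ ∘ fun (θ : Fin n → ℝ) (i : Fin n) =>
      Complex.exp (((gapEquiv m a θ i : ℝ) : ℂ) * Complex.I)) =
      (fun (θ : Fin n → ℝ) (j : J) => Complex.exp ((gapEquiv m a θ (π.symm j) : ℂ) * Complex.I)) := rfl
  rw [← h3, h2]
  let e := MeasurableEquiv.piCongrLeft (fun _ => ℝ) π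
  have he : ∀ (u : Fin n → ℝ) (j : J), e u j = u (π.symm j) := by
    intro u j
    obtain ⟨i, rfl⟩ := π.surjective j
    rw [Equiv.symm_apply_apply]
    exact Equiv.piCongrLeft_apply_apply (fun _ => ℝ) π u i
  have hmp : MeasurePreserving e (volume : Measure (Fin n → ℝ)) volume :=
    volume_measurePreserving_piCongrLeft (fun _ => ℝ) π
  have hpre : e ⁻¹' (angBox J) = angBox (Fin n) := by
    ext u
    simp only [Set.mem_preimage, angBox, Set.mem_univ_pi, he]
    constructor
    · intro hu i
      simpa using hu (π i)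
    · intro hu j
      exact hu _
  have h4 : (volume.restrict (angBox J)) = (volume.restrict (angBox (Fin n))).map e := by
    rw [← hpre, ← MeasurableEquiv.restrict_map, hmp.map_eq]
  rw [h4, Measure.map_map (measurable_expI J) e.measurable]
  congr 1
  funext u j
  simp only [Function.comp, expI, he]
  rfl

instance (Y : ℝ) : IsFiniteMeasure (annMeas Y) := by
  have : IsFiniteMeasure ((volume : Measure ℝ).restrict (Set.Ioo 0 Y)) :=
    ⟨by rw [Measure.restrict_apply_univ]; exact measure_Ioo_lt_top⟩
  have : IsFiniteMeasure ((volume : Measure ℝ).restrict (Set.Ioc (-Real.pi) Real.pi)) :=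
    ⟨by rw [Measure.restrict_apply_univ]; exact measure_Ioc_lt_top⟩
  unfold annMeas
  infer_instance

theorem pi_annMeas (Y : ℝ) :
    Measure.pi (fun _ : J => annMeas Y) =
      ((volume.restrict (cube J Y)).prod (volume.restrict (angBox J))).map
        (fun (q : (J → ℝ) × (J → ℝ)) (j : J) =>
          (Complex.exp (-(q.1 j : ℂ)) : ℂ) * expI J q.2 j) := by
  have hmf : Measurable (fun p : ℝ × ℝ => Complex.exp (-(p.1 : ℂ) + (p.2 : ℂ) * Complex.I)) := by
    fun_prop
  have hfin : ∀ _ : J, SigmaFinite (Measure.map (fun p : ℝ × ℝ =>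
      Complex.exp (-(p.1 : ℂ) + (p.2 : ℂ) * Complex.I))
      ((volume.restrict (Set.Ioo 0 Y)).prod (volume.restrict (Set.Ioc (-Real.pi) Real.pi)))) :=
    fun _ => (inferInstance : SigmaFinite (annMeas Y))
  have h1 := Measure.pi_map_pi (ι := J) (μ := fun _ =>
    (((volume : Measure ℝ).restrict (Set.Ioo 0 Y)).prod
      ((volume : Measure ℝ).restrict (Set.Ioc (-Real.pi) Real.pi))))
    (f := fun _ p => Complex.exp (-(p.1 : ℂ) + (p.2 : ℂ) * Complex.I))
    (hμ := hfin) (fun _ => hmf.aemeasurable)
  have h2 := (measurePreserving_arrowProdEquivProdArrow ℝ ℝ J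
    (fun _ => (volume : Measure ℝ).restrict (Set.Ioo 0 Y))
    (fun _ => (volume : Measure ℝ).restrict (Set.Ioc (-Real.pi) Real.pi)))
  have h3 : (Measure.pi fun _ : J => annMeas Y) = _ := h1.symm
  rw [h3]
  have h4 : (volume.restrict (cube J Y)).prod (volume.restrict (angBox J)) =
      (Measure.pi fun _ : J => (volume : Measure ℝ).restrict (Set.Ioo 0 Y)).prod
        (Measure.pi fun _ : J => (volume : Measure ℝ).restrict (Set.Ioc (-Real.pi) Real.pi)) := by
    rw [cube, angBox, volume_pi, Measure.restrict_pi_pi, Measure.restrict_pi_pi]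
  rw [h4, ← h2.map_eq, Measure.map_map ?_ h2.measurable]
  · congr 1
    funext x j
    simp only [Function.comp, expI]
    rw [Complex.exp_add]
    rfl
  · refine measurable_pi_lambda _ fun j => ?_
    have e1 : Measurable fun q : (J → ℝ) × (J → ℝ) => q.1 j :=
      (measurable_pi_apply j).comp measurable_fst
    have e2 : Measurable fun q : (J → ℝ) × (J → ℝ) => expI J q.2 j :=
      (measurable_pi_apply j).comp ((measurable_expI J).comp measurable_snd)
    fun_prop

/-- **Marks on a neck in ordered gap coordinates.** -/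
theorem pi_annMeas_eq {Y : ℝ} (hY : 0 < Y) (a : ℝ) :
    Measure.pi (fun _ : J => annMeas Y) =
      ∑ p : (Fin (Fintype.card J) ≃ J) × Fin (Fintype.card J + 1),
        ((volume.restrict (gdom (Fintype.card J) Y)).prod
          (volume.restrict (angBox (Fin (Fintype.card J))))).map
          (fun (q : (Fin (Fintype.card J) → ℝ) × (Fin (Fintype.card J) → ℝ)) (j : J) =>
            Complex.exp (-(gapEquiv p.2 Y q.1 (p.1.symm j) : ℂ) +
              (gapEquiv p.2 a q.2 (p.1.symm j) : ℂ) * Complex.I)) := by
  have hF : Measurable (fun (q : (J → ℝ) × (J → ℂ)) (j : J) =>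
      (Complex.exp (-(q.1 j : ℂ)) : ℂ) * q.2 j) := by
    refine measurable_pi_lambda _ fun j => ?_
    have e1 : Measurable fun q : (J → ℝ) × (J → ℂ) => q.1 j :=
      (measurable_pi_apply j).comp measurable_fst
    have e2 : Measurable fun q : (J → ℝ) × (J → ℂ) => q.2 j :=
      (measurable_pi_apply j).comp measurable_snd
    fun_prop
  have hfin : ∀ K : Type _, ∀ _ : Fintype K, IsFiniteMeasure
      ((volume : Measure (K → ℝ)).restrict (angBox K)) := by
    intro K _
    refine ⟨?_⟩
    rw [Measure.restrict_apply_univ, angBox, volume_pi_pi]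
    exact ENNReal.prod_lt_top fun _ _ => measure_Ioc_lt_top
  have i1 := hfin J inferInstance
  have hfin2 : ∀ n, IsFiniteMeasure
      ((volume : Measure (Fin n → ℝ)).restrict (angBox (Fin n))) := by
    intro n
    refine ⟨?_⟩
    rw [Measure.restrict_apply_univ, angBox, volume_pi_pi]
    exact ENNReal.prod_lt_top fun _ _ => measure_Ioc_lt_top
  have i2 := hfin2 (Fintype.card J)
  have e1 : (fun (q : (J → ℝ) × (J → ℝ)) (j : J) =>
      (Complex.exp (-(q.1 j : ℂ)) : ℂ) * expI J q.2 j) =
      (fun (q : (J → ℝ) × (J → ℂ)) (j : J) => (Complex.exp (-(q.1 j : ℂ)) : ℂ) * q.2 j) ∘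
        (Prod.map id (expI J)) := rfl
  have hpm : Measurable (Prod.map (id : (J → ℝ) → (J → ℝ)) (expI J)) :=
    (measurable_id.comp measurable_fst).prodMk ((measurable_expI J).comp measurable_snd)
  rw [pi_annMeas, e1, ← Measure.map_map hF hpm,
    ← Measure.map_prod_map _ _ measurable_id (measurable_expI J), Measure.map_id,
    cube_measure_eq hY]
  have hsum : ∀ (f : (Fin (Fintype.card J) ≃ J) × Fin (Fintype.card J + 1) → Measure (J → ℝ))
      (μ : Measure (J → ℂ)) [SFinite μ],
      (∑ p, f p).prod μ = ∑ p, (f p).prod μ := by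
    intro f μ _
    rw [← Measure.sum_fintype, ← Measure.sum_fintype, Measure.prod_sum_left]
  rw [hsum, Measure.map_finset_sum' (by
    exact hF.aemeasurable)]
  refine Finset.sum_congr rfl fun p _ => ?_
  have hT : Measurable (fun (u : Fin (Fintype.card J) → ℝ) (j : J) =>
      gapEquiv p.2 Y u (p.1.symm j)) :=
    measurable_pi_lambda _ fun j =>
      (measurable_pi_apply (p.1.symm j)).comp (measurable_gapEquiv p.2 Y)
  have hA : Measurable (fun (θ : Fin (Fintype.card J) → ℝ) (j : J) =>
      Complex.exp ((gapEquiv p.2 a θ (p.1.symm j) : ℂ) * Complex.I)) := by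
    refine measurable_pi_lambda _ fun j => ?_
    have : Measurable fun θ : Fin (Fintype.card J) → ℝ => gapEquiv p.2 a θ (p.1.symm j) :=
      (measurable_pi_apply (p.1.symm j)).comp (measurable_gapEquiv p.2 a)
    fun_prop
  rw [map_angle_lab p.1 p.2 a, Measure.map_prod_map _ _ hT hA, Measure.map_map hF
    (hT.prodMap hA)]
  congr 1
  funext q j
  simp only [Function.comp, Prod.map]
  exact (Complex.exp_add _ _).symm

end Vale.Agent.P273.H852
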