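import Vale.Agent.P273.H852.Neck3

/-!
Products of measures: sums, densities, sigma types.
-/

namespace Vale.Agent.P273.H852

open MeasureTheory Finset

set_option linter.unusedSectionVars false

section General

variable {ι : Type*} [Fintype ι]

theorem pi_sum {L : Type*} [Fintype L] [DecidableEq ι] {X : Type*} [MeasurableSpace X]
    (μ : L → Measure X) [∀ a, SigmaFinite (μ a)] :
    Measure.pi (fun _ : ι => ∑ a, μ a) = ∑ A : ι → L, Measure.pi (fun j => μ (A j)) := by
  have : SigmaFinite (∑ a, μ a) := by
    rw [← Measure.sum_fintype]; infer_instance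
  refine Measure.pi_eq fun s hs => ?_
  rw [Measure.finsetSum_apply]
  simp only [Measure.pi_pi, Measure.finsetSum_apply]
  rw [Finset.prod_univ_sum, Fintype.piFinset_univ]

/-- Dependent version: sum over a choice for every index. -/
theorem pi_sum_dep [DecidableEq ι] {P : ι → Type*} [∀ i, Fintype (P i)] {X : ι → Type*}
    [∀ i, MeasurableSpace (X i)]
    (μ : ∀ i, P i → Measure (X i)) [∀ i p, SigmaFinite (μ i p)] :
    Measure.pi (fun i : ι => ∑ p, μ i p) = ∑ A : (∀ i, P i), Measure.pi (fun i => μ i (A i)) := by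
  have : ∀ i, SigmaFinite (∑ p, μ i p) := by
    intro i
    rw [← Measure.sum_fintype]; infer_instance
  refine Measure.pi_eq fun s hs => ?_
  rw [Measure.finsetSum_apply]
  simp only [Measure.pi_pi, Measure.finsetSum_apply]
  rw [Finset.prod_univ_sum, Fintype.piFinset_univ]

theorem lmarginal_prod_aux [DecidableEq ι] {X : ι → Type*} [∀ i, MeasurableSpace (X i)]
    (μ : ∀ i, Measure (X i)) [∀ i, SigmaFinite (μ i)] (f : ∀ i, X i → ENNReal)
    (hf : ∀ i, Measurable (f i)) (s : Finset ι) :
    lmarginal μ s (fun x => ∏ i ∈ s, f i (x i)) = fun _ => ∏ i ∈ s, ∫⁻ x, f i x ∂(μ i) := by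
  induction s using Finset.induction_on with
  | empty => simp
  | insert i s hi ih =>
    have hm : ∀ t : Finset ι, Measurable fun x : (∀ i, X i) => ∏ i ∈ t, f i (x i) := fun t =>
      Finset.measurable_prod t fun i _ => (hf i).comp (measurable_pi_apply i)
    rw [lmarginal_insert' _ (hm _) hi]
    have h1 : (fun x : (∀ i, X i) => ∫⁻ xᵢ, ∏ j ∈ insert i s, f j (Function.update x i xᵢ j) ∂μ i) =
        fun x => (∫⁻ t, f i t ∂(μ i)) * ∏ j ∈ s, f j (x j) := by
      funext x
      rw [← lintegral_mul_const _ (hf i)]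
      refine lintegral_congr fun t => ?_
      rw [Finset.prod_insert hi, Function.update_self]
      congr 1
      refine Finset.prod_congr rfl fun j hj => ?_
      have hji : j ≠ i := by rintro rfl; exact hi hj
      rw [Function.update_of_ne hji]
    rw [h1]
    funext x
    rw [Finset.prod_insert hi, ← congrFun ih x]
    simp only [lmarginal]
    rw [lintegral_const_mul]
    exact (hm s).comp measurable_updateFinset

theorem lintegral_pi_eq_prod {X : ι → Type*} [∀ i, MeasurableSpace (X i)]
    (μ : ∀ i, Measure (X i)) [∀ i, SigmaFinite (μ i)] (f : ∀ i, X i → ENNReal)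
    (hf : ∀ i, Measurable (f i)) :
    ∫⁻ x, ∏ i, f i (x i) ∂(Measure.pi μ) = ∏ i, ∫⁻ x, f i x ∂(μ i) := by
  classical
  by_cases hne : Nonempty (∀ i, X i)
  · obtain ⟨x⟩ := hne
    rw [lintegral_eq_lmarginal_univ x, lmarginal_prod_aux μ f hf]
  · rw [not_nonempty_iff] at hne
    obtain ⟨i, hi⟩ : ∃ i, IsEmpty (X i) := by
      by_contra hc
      push Not at hc
      exact hne.false fun i => Classical.choice (hc i)
    rw [Finset.prod_eq_zero (mem_univ i)]
    · have : Measure.pi μ = 0 := Measure.eq_zero_of_isEmpty _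
      rw [this, lintegral_zero_measure]
    · have : μ i = 0 := Measure.eq_zero_of_isEmpty _
      rw [this, lintegral_zero_measure]

theorem pi_withDensity {X : ι → Type*} [∀ i, MeasurableSpace (X i)]
    (μ : ∀ i, Measure (X i)) [∀ i, SigmaFinite (μ i)] (f : ∀ i, X i → ENNReal)
    (hf : ∀ i, Measurable (f i)) [hfin : ∀ i, SigmaFinite ((μ i).withDensity (f i))] :
    Measure.pi (fun i => (μ i).withDensity (f i)) =
      (Measure.pi μ).withDensity (fun x => ∏ i, f i (x i)) := by
  refine Measure.pi_eq fun s hs => ?_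
  rw [withDensity_apply _ (MeasurableSet.univ_pi hs)]
  simp_rw [withDensity_apply _ (hs _)]
  rw [← lintegral_indicator (MeasurableSet.univ_pi hs)]
  have h1 : (fun x : (∀ i, X i) => (Set.univ.pi s).indicator (fun x => ∏ i, f i (x i)) x) =
      fun x => ∏ i, (s i).indicator (f i) (x i) := by
    funext x
    by_cases hx : x ∈ Set.univ.pi s
    · rw [Set.indicator_of_mem hx]
      exact Finset.prod_congr rfl fun i _ =>
        (Set.indicator_of_mem (hx i (Set.mem_univ _)) _).symm
    · rw [Set.indicator_of_notMem hx]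
      simp only [Set.mem_univ_pi, not_forall] at hx
      obtain ⟨i, hi⟩ := hx
      exact (Finset.prod_eq_zero (mem_univ i) (Set.indicator_of_notMem hi _)).symm
  rw [h1, lintegral_pi_eq_prod μ _ fun i => (hf i).indicator (hs i)]
  exact Finset.prod_congr rfl fun i _ => lintegral_indicator (hs i) _

/-- Product measures over a sigma type. -/
theorem pi_sigma {K : Type*} [Fintype K] {J : K → Type*} [∀ k, Fintype (J k)] {X : Type*}
    [MeasurableSpace X] (μ : (x : Σ k, J k) → Measure X) [∀ x, SigmaFinite (μ x)] :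
    Measure.pi μ = (Measure.pi fun k => Measure.pi fun j : J k => μ ⟨k, j⟩).map
      (fun f (x : Σ k, J k) => f x.1 x.2) := by
  refine Measure.pi_eq fun s hs => ?_
  have hm : Measurable (fun (f : (k : K) → J k → X) (x : Σ k, J k) => f x.1 x.2) :=
    measurable_pi_lambda _ fun x => (measurable_pi_apply x.2).comp (measurable_pi_apply x.1)
  rw [Measure.map_apply hm (MeasurableSet.univ_pi hs)]
  have hpre : (fun (f : (k : K) → J k → X) (x : Σ k, J k) => f x.1 x.2) ⁻¹' (Set.univ.pi s) =
      Set.univ.pi fun k => Set.univ.pi fun j => s ⟨k, j⟩ := by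
    ext f
    simp only [Set.mem_preimage, Set.mem_univ_pi]
    exact ⟨fun h k j => h ⟨k, j⟩, fun h x => h x.1 x.2⟩
  rw [hpre, Measure.pi_pi]
  simp only [Measure.pi_pi]
  exact (Fintype.prod_sigma (fun x : Σ k, J k => μ x (s x))).symm

/-- Splitting of a product measure along an equivalence with a sum type. -/
theorem pi_split {N C : Type*} [Fintype N] [Fintype C] (e : N ⊕ C ≃ ι) {X : Type*}
    [MeasurableSpace X] (μ : ι → Measure X) [∀ i, SigmaFinite (μ i)] :
    Measure.pi μ = ((Measure.pi fun x : N => μ (e (Sum.inl x))).prod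
      (Measure.pi fun x : C => μ (e (Sum.inr x)))).map
        (fun (f : (N → X) × (C → X)) (j : ι) => Sum.elim f.1 f.2 (e.symm j)) := by
  refine Measure.pi_eq fun s hs => ?_
  have hm : Measurable (fun (f : (N → X) × (C → X)) (j : ι) => Sum.elim f.1 f.2 (e.symm j)) := by
    refine measurable_pi_lambda _ fun j => ?_
    rcases e.symm j with x | x
    · exact (measurable_pi_apply x).comp measurable_fst
    · exact (measurable_pi_apply x).comp measurable_snd
  rw [Measure.map_apply hm (MeasurableSet.univ_pi hs)]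
  have hpre : (fun (f : (N → X) × (C → X)) (j : ι) => Sum.elim f.1 f.2 (e.symm j)) ⁻¹'
      (Set.univ.pi s) =
      (Set.univ.pi fun x => s (e (Sum.inl x))) ×ˢ (Set.univ.pi fun x => s (e (Sum.inr x))) := by
    ext f
    simp only [Set.mem_preimage, Set.mem_univ_pi, Set.mem_prod]
    constructor
    · intro h
      refine ⟨fun x => ?_, fun x => ?_⟩
      · have := h (e (Sum.inl x))
        rwa [Equiv.symm_apply_apply] at this
      · have := h (e (Sum.inr x))
        rwa [Equiv.symm_apply_apply] at this
    · rintro ⟨h1, h2⟩ j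
      obtain ⟨x, rfl⟩ := e.surjective j
      rw [Equiv.symm_apply_apply]
      rcases x with x | x
      · exact h1 x
      · exact h2 x
  rw [hpre, Measure.prod_prod, Measure.pi_pi, Measure.pi_pi, ← e.prod_comp,
    Fintype.prod_sum_type]

end General

end Vale.Agent.P273.H852
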